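/-
Row 258, [Weyl].  Leaf P-WY-CLEARS: a quasipolynomial common denominator of `C`.   PROVED (helper197).
-/
import Claimed.Agent.R258.Pack004

set_option autoImplicit false
open Matrix

namespace Claimed.Agent.R258

/-- Leaf P-WY-CLEARS: a quasipolynomial common denominator.  `P = ∏_i ∏_j (C i j).den ≤ (X^d)^d ≤ qp 3 X`
(`(C i j).den ≤ qHeight ≤ X`; `Finset.prod_le_pow_card`-type bounds; `(C i j).den ∣ P` by `Finset.dvd_prod_of_mem` twice, and
`(den : ℚ) * r = r.num` is `Rat.den_mul_eq_num` / `Rat.mul_den_eq_num`). -/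
theorem wy_clears_exists : ∃ c : ℕ, ∀ {ι κ : Type*} [Fintype ι] [Fintype κ] (X : ℝ) (C : Matrix ι ι ℚ), wy_Std X C κ →
    ∃ P : ℕ, wy_Clears P C ∧ (P : ℝ) ≤ wy_qp c X := by
  refine ⟨3, ?_⟩
  intro ι κ _ _ X C hstd
  have hX := hstd.one_le
  refine ⟨∏ i, ∏ j, (C i j).den, ⟨Finset.prod_pos fun i _ => Finset.prod_pos fun j _ => (C i j).den_pos, fun i j => ?_⟩, ?_⟩
  · have h1 : (C i j).den ∣ ∏ i, ∏ j, (C i j).den :=
      (Finset.dvd_prod_of_mem (fun j => (C i j).den) (Finset.mem_univ j)).trans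
        (Finset.dvd_prod_of_mem (fun i => ∏ j, (C i j).den) (Finset.mem_univ i))
    obtain ⟨q, hq⟩ := h1
    refine ⟨(q : ℤ) * (C i j).num, ?_⟩
    rw [hq]
    push_cast
    have := Rat.den_mul_eq_num (C i j)
    calc ((C i j).den : ℚ) * (q : ℚ) * C i j = (q : ℚ) * (((C i j).den : ℚ) * C i j) := by ring
      _ = _ := by rw [this]
  · push_cast
    have hden : ∀ i j, (((C i j).den : ℕ) : ℝ) ≤ X := by
      intro i j
      refine le_trans ?_ (hstd.height i j)
      unfold qHeight
      exact_mod_cast le_max_right _ _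
    calc ∏ i, ∏ j, (((C i j).den : ℕ) : ℝ) ≤ ∏ _i : ι, ∏ _j : ι, X := by
          apply Finset.prod_le_prod (fun i _ => Finset.prod_nonneg fun j _ => by positivity)
          intro i _
          exact Finset.prod_le_prod (fun j _ => by positivity) (fun j _ => hden i j)
      _ = (X ^ Fintype.card ι) ^ Fintype.card ι := by simp
      _ ≤ wy_qp 3 X := by
          apply wy_pow_le_qp hX (by positivity) _ hstd.dim
          exact wy_pow_le_qp hX (by linarith) (wy_le_qp le_rfl hX) hstd.dim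

end Claimed.Agent.R258
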