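/-
Row 258, [Weyl].  Small linear algebra API: casts `wy_R`, sup-norm bounds of products, bilinear forms, integrality of `mᵀ C n`.
helper197 (proved).
-/
import Claimed.Agent.R258.Pack004

set_option autoImplicit false
open Matrix

namespace Claimed.Agent.R258

theorem wy_R_mul {l m n : Type*} [Fintype m] (A : Matrix l m ℚ) (B : Matrix m n ℚ) : wy_R (A * B) = wy_R A * wy_R B := by
  ext i j
  simp [wy_R, Matrix.mul_apply]

theorem wy_R_sub {m n : Type*} (A B : Matrix m n ℚ) : wy_R (A - B) = wy_R A - wy_R B := by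
  ext i j
  simp [wy_R]

theorem wy_R_transpose {m n : Type*} (A : Matrix m n ℚ) : wy_R Aᵀ = (wy_R A)ᵀ := by
  ext i j
  simp [wy_R]

theorem wy_R_zero {m n : Type*} : wy_R (0 : Matrix m n ℚ) = 0 := by
  ext i j
  simp [wy_R]

theorem wy_R_one {m : Type*} [DecidableEq m] : wy_R (1 : Matrix m m ℚ) = 1 := by
  ext i j
  by_cases h : i = j <;> simp [wy_R, Matrix.one_apply, h]

theorem wy_R_apply {m n : Type*} (A : Matrix m n ℚ) (i : m) (j : n) : wy_R A i j = ((A i j : ℚ) : ℝ) := rfl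

theorem wy_dot_le {n : Type*} [Fintype n] (x y : n → ℝ) (a b : ℝ) (ha : 0 ≤ a) (hx : ∀ i, |x i| ≤ a) (hy : ∀ i, |y i| ≤ b) :
    |x ⬝ᵥ y| ≤ (Fintype.card n : ℝ) * (a * b) := by
  unfold dotProduct
  calc |∑ i, x i * y i| ≤ ∑ i, |x i * y i| := Finset.abs_sum_le_sum_abs _ _
    _ ≤ ∑ _i : n, a * b := by
        apply Finset.sum_le_sum
        intro i _
        rw [abs_mul]
        exact mul_le_mul (hx i) (hy i) (abs_nonneg _) ha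
    _ = _ := by simp

theorem wy_mulVec_le {m n : Type*} [Fintype n] (A : Matrix m n ℝ) (y : n → ℝ) (a b : ℝ) (ha : 0 ≤ a)
    (hA : ∀ i j, |A i j| ≤ a) (hy : ∀ j, |y j| ≤ b) (i : m) : |(A *ᵥ y) i| ≤ (Fintype.card n : ℝ) * (a * b) :=
  wy_dot_le (fun j => A i j) y a b ha (hA i) hy

theorem wy_mul_le {l m n : Type*} [Fintype m] (A : Matrix l m ℝ) (B : Matrix m n ℝ) (a b : ℝ) (ha : 0 ≤ a)
    (hA : ∀ i j, |A i j| ≤ a) (hB : ∀ i j, |B i j| ≤ b) (i : l) (j : n) : |(A * B) i j| ≤ (Fintype.card m : ℝ) * (a * b) :=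
  wy_dot_le (fun k => A i k) (fun k => B k j) a b ha (hA i) (fun k => hB k j)

variable {ι κ : Type*} [Fintype ι] [Fintype κ]

/-- `mᵀ C n ∈ ℤ` for `m ∈ P ℤ^ι`, `n ∈ ℤ^ι` -/
theorem wy_int_pairing (P : ℕ) (C : Matrix ι ι ℚ) (hP : wy_Clears P C) (m n : ι → ℤ) (hm : ∀ i, (P : ℤ) ∣ m i) :
    ∃ z : ℤ, wy_Z m ⬝ᵥ (wy_R C *ᵥ wy_Z n) = (z : ℝ) := by
  choose m0 hm0 using hm
  choose zz hz using hP.2
  refine ⟨∑ i, ∑ j, m0 i * zz i j * n j, ?_⟩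
  simp only [dotProduct, Matrix.mulVec, wy_Z, wy_R, Matrix.map_apply, Finset.mul_sum]
  push_cast
  apply Finset.sum_congr rfl
  intro i _
  apply Finset.sum_congr rfl
  intro j _
  have h1 : ((P : ℝ)) * ((C i j : ℚ) : ℝ) = (zz i j : ℝ) := by
    have := congrArg (fun q : ℚ => (q : ℝ)) (hz i j)
    simpa using this
  rw [hm0 i, ← h1]
  push_cast
  ring

theorem wy_is_A (Cr : Matrix ι ι ℝ) (x y : ι → ℝ) :
    x ⬝ᵥ ((Cr - Crᵀ) *ᵥ y) = x ⬝ᵥ (Cr *ᵥ y) - y ⬝ᵥ (Cr *ᵥ x) := by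
  rw [Matrix.sub_mulVec, dotProduct_sub]
  congr 1
  rw [Matrix.dotProduct_mulVec, Matrix.vecMul_transpose, dotProduct_comm]

theorem wy_is_left (V : Matrix ι κ ℝ) (B : Matrix ι ι ℝ) (h' : κ → ℝ) (x : ι → ℝ) :
    h' ⬝ᵥ ((Vᵀ * B) *ᵥ x) = (V *ᵥ h') ⬝ᵥ (B *ᵥ x) := by
  rw [← Matrix.mulVec_mulVec, Matrix.dotProduct_mulVec, Matrix.vecMul_transpose]

theorem wy_is_sandwich (V : Matrix ι κ ℝ) (B : Matrix ι ι ℝ) (h' h : κ → ℝ) :
    h' ⬝ᵥ ((Vᵀ * B * V) *ᵥ h) = (V *ᵥ h') ⬝ᵥ (B *ᵥ (V *ᵥ h)) := by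
  rw [← Matrix.mulVec_mulVec, wy_is_left]

end Claimed.Agent.R258
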