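/-
Row 258, [Weyl].  Leaf P-WY-W1A: the EXACT return identity (charts.tex l.176-205).  No size hypotheses, no summability.   PROVED (helper197).
Proved API available: Weyl/Ee.lean (`wy_ee_add`, `wy_ee_int`, ...), Weyl/Lin.lean (`wy_int_pairing`, `wy_is_left`, `wy_is_sandwich`, `wy_is_A`).
-/
import Claimed.Agent.R258.Pack004
import Claimed.Agent.R258.Weyl.Lin

set_option autoImplicit false
open Matrix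

namespace Claimed.Agent.R258

variable {ι κ : Type*} [Fintype ι] [Fintype κ]

/-- the amplitude after a return with defect `d`: `w ↦ χ(w + d) e(dᵀ C w)` -/
noncomputable def wy_shiftAmp (C : Matrix ι ι ℚ) (χ : (ι → ℝ) → ℂ) (d : ι → ℝ) : (ι → ℝ) → ℂ :=
  fun w => χ (w + d) * ee (d ⬝ᵥ (wy_R C *ᵥ w))

/-- the chart part of the phase identity -/
theorem wy_1a_phase (Cr : Matrix ι ι ℝ) (V : Matrix ι κ ℝ) (h z : κ → ℝ) (M N : ι → ℝ) :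
    (V *ᵥ z + V *ᵥ h) ⬝ᵥ (Cr *ᵥ ((V *ᵥ z - N) + (V *ᵥ h - M))) =
      (V *ᵥ h) ⬝ᵥ (Cr *ᵥ (V *ᵥ h - M)) + ((Vᵀ * Cr * V) *ᵥ h - (Vᵀ * (Cr - Crᵀ)) *ᵥ M) ⬝ᵥ z
        + (V *ᵥ h - M) ⬝ᵥ (Cr *ᵥ (V *ᵥ z - N)) + (V *ᵥ z) ⬝ᵥ (Cr *ᵥ (V *ᵥ z - N)) - M ⬝ᵥ (Cr *ᵥ N) := by
  rw [dotProduct_comm _ z, dotProduct_sub, wy_is_sandwich, wy_is_left, wy_is_A]
  simp only [Matrix.mulVec_add, Matrix.mulVec_sub, add_dotProduct, sub_dotProduct, dotProduct_add, dotProduct_sub]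
  ring

/-- the ordinary quadratic part -/
theorem wy_1a_quad (Lam : Matrix κ κ ℝ) (hLam : Lamᵀ = Lam) (b h z : κ → ℝ) :
    (z + h) ⬝ᵥ (Lam *ᵥ (z + h)) + b ⬝ᵥ (z + h) =
      (z ⬝ᵥ (Lam *ᵥ z) + b ⬝ᵥ z) + (h ⬝ᵥ (Lam *ᵥ h) + b ⬝ᵥ h) + (((2 : ℝ) • Lam) *ᵥ h) ⬝ᵥ z := by
  have hsym : h ⬝ᵥ (Lam *ᵥ z) = z ⬝ᵥ (Lam *ᵥ h) := by
    rw [Matrix.dotProduct_mulVec, ← Matrix.mulVec_transpose, hLam, dotProduct_comm]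
  rw [dotProduct_comm (((2 : ℝ) • Lam) *ᵥ h) z, Matrix.smul_mulVec, dotProduct_smul, smul_eq_mul]
  simp only [Matrix.mulVec_add, add_dotProduct, dotProduct_add]
  rw [hsym]
  ring

/-- **Exact return identity.**  With `u = V z`, `d = V h - m`, `w = u - n`, replace the index `n` by `n + m` (`Equiv.addRight m`, `Equiv.tsum_eq`):
`(u + m + d)ᵀ C (w + d) = uᵀCw + dᵀCw + (uᵀCd + mᵀCu) - mᵀCn + (m + d)ᵀCd`, `mᵀCn ∈ ℤ`, `uᵀCd + mᵀCu = zᵀ(VᵀCVh - Vᵀ(C - Cᵀ)m)`,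
`(z+h)ᵀΛ(z+h) + bᵀ(z+h) = zᵀΛz + bᵀz + 2 zᵀΛh + hᵀΛh + bᵀh` (`Λ` symmetric).
The constant is `c = hᵀΛh + bᵀh + (Vh)ᵀ C d`.  (`tsum_mul_left` holds in `ℂ` without summability.) -/
theorem wy_W1a (P : ℕ) (C : Matrix ι ι ℚ) (V : Matrix ι κ ℝ) (Lam : Matrix κ κ ℝ) (b : κ → ℝ) (χ : (ι → ℝ) → ℂ)
    (hP : wy_Clears P C) (hLam : Lamᵀ = Lam) (h : κ → ℝ) (m : ι → ℤ) (hm : ∀ i, (P : ℤ) ∣ m i) (z : κ → ℝ) :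
    wy_Q C V Lam b χ (z + h) =
      ee (h ⬝ᵥ (Lam *ᵥ h) + b ⬝ᵥ h + (V *ᵥ h) ⬝ᵥ (wy_R C *ᵥ (V *ᵥ h - wy_Z m))) * ee (wy_Omega C V Lam h m ⬝ᵥ z) *
        wy_Q C V Lam b (wy_shiftAmp C χ (V *ᵥ h - wy_Z m)) z := by
  set Cr := wy_R C with hCr
  set M := wy_Z m with hM
  set Ωc := (Vᵀ * Cr * V) *ᵥ h - (Vᵀ * (Cr - Crᵀ)) *ᵥ M with hΩc
  have hΩ : wy_Omega C V Lam h m ⬝ᵥ z = (((2 : ℝ) • Lam) *ᵥ h) ⬝ᵥ z + Ωc ⬝ᵥ z := by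
    unfold wy_Omega
    rw [hΩc, ← add_dotProduct, Matrix.add_mulVec]
    congr 1
    abel
  have hterm : ∀ n : ι → ℤ,
      χ (V *ᵥ (z + h) - wy_Z (n + m)) * ee ((V *ᵥ (z + h)) ⬝ᵥ (Cr *ᵥ (V *ᵥ (z + h) - wy_Z (n + m)))) =
        (ee ((V *ᵥ h) ⬝ᵥ (Cr *ᵥ (V *ᵥ h - M))) * ee (Ωc ⬝ᵥ z)) *
          (wy_shiftAmp C χ (V *ᵥ h - M) (V *ᵥ z - wy_Z n) * ee ((V *ᵥ z) ⬝ᵥ (Cr *ᵥ (V *ᵥ z - wy_Z n)))) := by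
    intro n
    have e1 : V *ᵥ (z + h) - wy_Z (n + m) = (V *ᵥ z - wy_Z n) + (V *ᵥ h - M) := by
      rw [Matrix.mulVec_add]
      funext i
      simp [wy_Z, hM]
      ring
    obtain ⟨zz, hzz⟩ := wy_int_pairing P C hP m n hm
    rw [e1, Matrix.mulVec_add, wy_1a_phase, hM, hCr, hzz, wy_ee_sub_int, wy_ee_add, wy_ee_add, wy_ee_add]
    unfold wy_shiftAmp
    ring
  unfold wy_Q
  rw [← (Equiv.addRight m).tsum_eq]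
  simp only [Equiv.coe_addRight]
  rw [tsum_congr hterm, tsum_mul_left, wy_1a_quad Lam hLam, hΩ]
  simp only [wy_ee_add]
  ring

end Claimed.Agent.R258
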