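/-
Row 258, [Weyl].  Leaf P-WY-W1B: size of `Q` and of the amplitude perturbation (charts.tex l.186-205).   PROVED (helper197).
-/
import Claimed.Agent.R258.Weyl.W1a
import Claimed.Agent.R258.Pack004

set_option autoImplicit false
open Matrix

namespace Claimed.Agent.R258

/-- number of lattice points in a box: for every `x ∈ ℝ^ι` and `K ≥ 0` there is a finite set `N` of at most `(2K+1)^d` integer vectors containing
all `n` with `|x - n|_∞ ≤ K`.  (`N = Fintype.piFinset fun i => Finset.Icc ⌈x i - K⌉ ⌊x i + K⌋`, `Int.card_Icc`.) -/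
theorem wy_lattice_count {ι : Type*} [Fintype ι] [DecidableEq ι] (x : ι → ℝ) (K : ℝ) (hK : 0 ≤ K) :
    ∃ N : Finset (ι → ℤ), (∀ n : ι → ℤ, (∀ i, |x i - (n i : ℝ)| ≤ K) → n ∈ N) ∧
      (N.card : ℝ) ≤ (2 * K + 1) ^ Fintype.card ι := by
  refine ⟨Fintype.piFinset fun i => Finset.Icc ⌈x i - K⌉ ⌊x i + K⌋, fun n hn => ?_, ?_⟩
  · rw [Fintype.mem_piFinset]
    intro i
    have := abs_le.mp (hn i)
    rw [Finset.mem_Icc]
    constructor
    · apply Int.ceil_le.mpr; linarith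
    · apply Int.le_floor.mpr; linarith
  · rw [Fintype.card_piFinset]
    push_cast
    calc ∏ i, ((Finset.Icc ⌈x i - K⌉ ⌊x i + K⌋).card : ℝ) ≤ ∏ _i : ι, (2 * K + 1) := by
          apply Finset.prod_le_prod (fun i _ => by positivity)
          intro i _
          rw [Int.card_Icc]
          have h1 : ((⌊x i + K⌋ + 1 - ⌈x i - K⌉ : ℤ) : ℝ) ≤ 2 * K + 1 := by
            push_cast
            have a1 := Int.floor_le (x i + K)
            have a2 := Int.le_ceil (x i - K)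
            linarith
          rcases le_total 0 (⌊x i + K⌋ + 1 - ⌈x i - K⌉) with h0 | h0
          · have : (((⌊x i + K⌋ + 1 - ⌈x i - K⌉).toNat : ℕ) : ℝ) = ((⌊x i + K⌋ + 1 - ⌈x i - K⌉ : ℤ) : ℝ) := by
              have := Int.toNat_of_nonneg h0
              exact_mod_cast this
            rw [this]
            exact h1
          · rw [Int.toNat_of_nonpos h0]
            simp only [Nat.cast_zero]
            positivity
      _ = _ := by simp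

/-- a lattice sum of a compactly supported function is a finite sum -/
theorem wy_1b_zero {ι : Type*} [Fintype ι] (f : (ι → ℝ) → ℂ) (K : ℝ)
    (hsupp : ∀ w, f w ≠ 0 → ∀ i, |w i| ≤ K) (x : ι → ℝ) (φ : (ι → ℤ) → ℂ) (N : Finset (ι → ℤ))
    (hN : ∀ n : ι → ℤ, (∀ i, |x i - (n i : ℝ)| ≤ K) → n ∈ N) (n : ι → ℤ) (hn : n ∉ N) :
    f (x - wy_Z n) * φ n = 0 := by
  by_contra hne
  have h1 : f (x - wy_Z n) ≠ 0 := fun h0 => hne (by rw [h0, zero_mul])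
  exact hn (hN n (fun i => hsupp _ h1 i))

theorem wy_1b_summable {ι : Type*} [Fintype ι] (f : (ι → ℝ) → ℂ) (K : ℝ) (hK : 0 ≤ K)
    (hsupp : ∀ w, f w ≠ 0 → ∀ i, |w i| ≤ K) (x : ι → ℝ) (φ : (ι → ℤ) → ℂ) :
    Summable fun n : ι → ℤ => f (x - wy_Z n) * φ n := by
  classical
  obtain ⟨N, hN, -⟩ := wy_lattice_count x K hK
  exact summable_of_ne_finset_zero (s := N) (fun n hn => wy_1b_zero f K hsupp x φ N hN n hn)

/-- sum over the lattice of a function supported in the box of radius `K` and bounded by `A` -/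
theorem wy_lattice_sum {ι : Type*} [Fintype ι] (f : (ι → ℝ) → ℂ) (K A : ℝ) (hK : 0 ≤ K) (hA : 0 ≤ A)
    (hsupp : ∀ w, f w ≠ 0 → ∀ i, |w i| ≤ K) (hbd : ∀ w, ‖f w‖ ≤ A) (x : ι → ℝ) (φ : (ι → ℤ) → ℂ) (hφ : ∀ n, ‖φ n‖ ≤ 1) :
    ‖∑' n : ι → ℤ, f (x - wy_Z n) * φ n‖ ≤ (2 * K + 1) ^ Fintype.card ι * A := by
  classical
  obtain ⟨N, hN, hcard⟩ := wy_lattice_count x K hK
  rw [tsum_eq_sum (s := N) (fun n hn => wy_1b_zero f K hsupp x φ N hN n hn)]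
  calc ‖∑ n ∈ N, f (x - wy_Z n) * φ n‖ ≤ ∑ n ∈ N, ‖f (x - wy_Z n) * φ n‖ := norm_sum_le _ _
    _ ≤ ∑ _n ∈ N, A := by
        apply Finset.sum_le_sum
        intro n _
        rw [norm_mul]
        calc ‖f (x - wy_Z n)‖ * ‖φ n‖ ≤ A * 1 := mul_le_mul (hbd _) (hφ n) (norm_nonneg _) hA
          _ = A := mul_one _
    _ = N.card * A := by simp
    _ ≤ _ := mul_le_mul_of_nonneg_right hcard hA

/-- **Size of `Q`.**  `‖Q(z)‖ ≤ (2X+1)^d X`. -/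
theorem wy_Q_bdd : ∃ c : ℕ, ∀ {ι κ : Type*} [Fintype ι] [Fintype κ] (X : ℝ) (C : Matrix ι ι ℚ) (V : Matrix ι κ ℝ)
    (Lam : Matrix κ κ ℝ) (b : κ → ℝ) (χ : (ι → ℝ) → ℂ), wy_Std X C κ → wy_Amp X χ →
    ∀ z, ‖wy_Q C V Lam b χ z‖ ≤ wy_qp c X := by
  refine ⟨7, ?_⟩
  intro ι κ _ _ X C V Lam b χ hstd hχ z
  have hX := hstd.one_le
  have hX0 : 0 ≤ X := by linarith
  unfold wy_Q
  rw [norm_mul, wy_ee_norm, one_mul]
  refine (wy_lattice_sum χ X X hX0 hX0 hχ.supp hχ.bdd (V *ᵥ z) _ (fun n => (wy_ee_norm _).le)).trans ?_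
  have qX : X ≤ wy_qp 1 X := wy_le_qp le_rfl hX
  have q2 : (2 : ℝ) ≤ wy_qp 2 X := by exact_mod_cast wy_cast_le_qp 2 hX
  have q1 : (1 : ℝ) ≤ wy_qp 0 X := wy_one_le_qp 0 hX
  have e1 : 2 * X ≤ wy_qp 3 X := wy_mul_le_qp (c := 2) (c' := 1) hX (by norm_num) q2 qX
  have e2 : 2 * X + 1 ≤ wy_qp 5 X := wy_add_le_qp (c := 3) (c' := 0) hX e1 q1
  have e3 : (2 * X + 1) ^ Fintype.card ι ≤ wy_qp 6 X := wy_pow_le_qp hX (by positivity) e2 hstd.dim
  exact wy_mul_le_qp (c := 6) (c' := 1) hX (by positivity) e3 qX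

theorem wy_1b_budget (X : ℝ) (d : ℕ) (hX : 1 ≤ X) (hd : (d : ℝ) ≤ 1 + Real.log X) :
    (2 * (X + 1) + 1) ^ d * (X + X * (2 * Real.pi * ((d : ℝ) * ((d : ℝ) * (X * X))))) ≤ wy_qp 24 X := by
  have hX0 : 0 ≤ X := by linarith
  have hd0 : (0 : ℝ) ≤ d := by positivity
  have hpi := Real.pi_pos
  have qX : X ≤ wy_qp 1 X := wy_le_qp le_rfl hX
  have q2 : (2 : ℝ) ≤ wy_qp 2 X := by exact_mod_cast wy_cast_le_qp 2 hX
  have q1 : (1 : ℝ) ≤ wy_qp 0 X := wy_one_le_qp 0 hX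
  have qd : (d : ℝ) ≤ wy_qp 1 X := wy_dim_le_qp hX hd
  have q8 : 2 * Real.pi ≤ wy_qp 8 X := by
    have : (8 : ℝ) ≤ wy_qp 8 X := by exact_mod_cast wy_cast_le_qp 8 hX
    linarith [Real.pi_le_four]
  have e1 : X + 1 ≤ wy_qp 3 X := wy_add_le_qp (c := 1) (c' := 0) hX qX q1
  have e2 : 2 * (X + 1) ≤ wy_qp 5 X := wy_mul_le_qp (c := 2) (c' := 3) hX (by norm_num) q2 e1
  have e3 : 2 * (X + 1) + 1 ≤ wy_qp 7 X := wy_add_le_qp (c := 5) (c' := 0) hX e2 q1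
  have e4 : (2 * (X + 1) + 1) ^ d ≤ wy_qp 8 X := wy_pow_le_qp hX (by positivity) e3 hd
  have f1 : X * X ≤ wy_qp 2 X := wy_mul_le_qp (c := 1) (c' := 1) hX hX0 qX qX
  have f2 : (d : ℝ) * (X * X) ≤ wy_qp 3 X := wy_mul_le_qp (c := 1) (c' := 2) hX hd0 qd f1
  have f3 : (d : ℝ) * ((d : ℝ) * (X * X)) ≤ wy_qp 4 X := wy_mul_le_qp (c := 1) (c' := 3) hX hd0 qd f2
  have f4 : 2 * Real.pi * ((d : ℝ) * ((d : ℝ) * (X * X))) ≤ wy_qp 12 X :=
    wy_mul_le_qp (c := 8) (c' := 4) hX (by positivity) q8 f3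
  have f5 : X * (2 * Real.pi * ((d : ℝ) * ((d : ℝ) * (X * X)))) ≤ wy_qp 13 X := wy_mul_le_qp (c := 1) (c' := 12) hX hX0 qX f4
  have f6 := wy_add_le_qp (c := 1) (c' := 13) hX qX f5
  exact wy_mul_le_qp (c := 8) (c' := 1 + 13 + 2) hX (by positivity) e4 f6

/-- **Amplitude perturbation.**  For `|d|_∞ ≤ s ≤ 1`:  `χ(w+d) e(dᵀCw) - χ(w)` is supported in `|w|_∞ ≤ X + 1` and bounded by
`X s + X · 2π d² s X (X+1)`; there are at most `(2X+3)^d` lattice points. -/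
theorem wy_W1b : ∃ c : ℕ, ∀ {ι κ : Type*} [Fintype ι] [Fintype κ] (X : ℝ) (C : Matrix ι ι ℚ) (V : Matrix ι κ ℝ)
    (Lam : Matrix κ κ ℝ) (b : κ → ℝ) (χ : (ι → ℝ) → ℂ), wy_Std X C κ → wy_Amp X χ →
    ∀ (d : ι → ℝ) (s : ℝ), 0 ≤ s → s ≤ 1 → (∀ i, |d i| ≤ s) →
    ∀ z, ‖wy_Q C V Lam b (wy_shiftAmp C χ d) z - wy_Q C V Lam b χ z‖ ≤ wy_qp c X * s := by
  refine ⟨24, ?_⟩
  intro ι κ _ _ X C V Lam b χ hstd hχ d s hs0 hs1 hd z
  have hX := hstd.one_le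
  have hX0 : 0 ≤ X := by linarith
  have hpi := Real.pi_pos
  set dι : ℝ := (Fintype.card ι : ℝ) with hdι
  have hdι0 : 0 ≤ dι := by positivity
  have hC : ∀ i l, |wy_R C i l| ≤ X := fun i l => (wy_abs_le_qHeight _).trans (hstd.height i l)
  -- supports
  have hs' : ∀ w, wy_shiftAmp C χ d w ≠ 0 → ∀ i, |w i| ≤ X + 1 := by
    intro w hw i
    have h1 : χ (w + d) ≠ 0 := fun h0 => hw (by unfold wy_shiftAmp; rw [h0, zero_mul])
    have h2 := hχ.supp _ h1 i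
    have h3 : |w i| ≤ |(w + d) i| + |d i| := by
      have : w i = (w + d) i - d i := by simp
      rw [this]
      exact abs_sub _ _
    linarith [hd i]
  have hs'' : ∀ w, χ w ≠ 0 → ∀ i, |w i| ≤ X + 1 := fun w hw i => (hχ.supp w hw i).trans (by linarith)
  set f : (ι → ℝ) → ℂ := fun w => wy_shiftAmp C χ d w - χ w with hf
  have hfs : ∀ w, f w ≠ 0 → ∀ i, |w i| ≤ X + 1 := by
    intro w hw
    by_cases h1 : χ w = 0
    · apply hs' w
      intro h0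
      apply hw
      simp [hf, h0, h1]
    · exact hs'' w h1
  set A : ℝ := X + X * (2 * Real.pi * (dι * (dι * (X * X)))) with hA
  have hA0 : 0 ≤ A := by positivity
  have hfb : ∀ w, ‖f w‖ ≤ A * s := by
    intro w
    have e : f w = (χ (w + d) - χ w) * ee (d ⬝ᵥ (wy_R C *ᵥ w)) + χ w * (ee (d ⬝ᵥ (wy_R C *ᵥ w)) - 1) := by
      simp only [hf, wy_shiftAmp]
      ring
    have b1 : ‖(χ (w + d) - χ w) * ee (d ⬝ᵥ (wy_R C *ᵥ w))‖ ≤ X * s := by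
      rw [norm_mul, wy_ee_norm, mul_one]
      refine (hχ.lip _ _).trans (mul_le_mul_of_nonneg_left ?_ hX0)
      rw [add_sub_cancel_left, pi_norm_le_iff_of_nonneg hs0]
      intro i
      rw [Real.norm_eq_abs]
      exact hd i
    have b2 : ‖χ w * (ee (d ⬝ᵥ (wy_R C *ᵥ w)) - 1)‖ ≤ X * (2 * Real.pi * (dι * (s * (dι * (X * X))))) := by
      by_cases h1 : χ w = 0
      · rw [h1, zero_mul, norm_zero]
        positivity
      · rw [norm_mul]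
        have c1 : ∀ i, |(wy_R C *ᵥ w) i| ≤ dι * (X * X) := wy_mulVec_le _ _ X X hX0 hC (hχ.supp w h1)
        have c2 := wy_dot_le d _ s _ hs0 hd c1
        have c3 := wy_ee_sub_one (d ⬝ᵥ (wy_R C *ᵥ w))
        have c4 : ‖ee (d ⬝ᵥ (wy_R C *ᵥ w)) - 1‖ ≤ 2 * Real.pi * (dι * (s * (dι * (X * X)))) :=
          c3.trans (mul_le_mul_of_nonneg_left c2 (by positivity))
        exact mul_le_mul (hχ.bdd w) c4 (norm_nonneg _) hX0
    rw [e]
    refine (norm_add_le _ _).trans ((add_le_add b1 b2).trans (le_of_eq ?_))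
    rw [hA]
    ring
  have hK : 0 ≤ X + 1 := by linarith
  have e : wy_Q C V Lam b (wy_shiftAmp C χ d) z - wy_Q C V Lam b χ z =
      ee (z ⬝ᵥ (Lam *ᵥ z) + b ⬝ᵥ z) *
        ∑' n : ι → ℤ, f (V *ᵥ z - wy_Z n) * ee ((V *ᵥ z) ⬝ᵥ (wy_R C *ᵥ (V *ᵥ z - wy_Z n))) := by
    unfold wy_Q
    rw [← mul_sub, ← (wy_1b_summable _ (X + 1) hK hs' (V *ᵥ z) _).tsum_sub (wy_1b_summable _ (X + 1) hK hs'' (V *ᵥ z) _)]
    congr 1
    apply tsum_congr
    intro n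
    simp only [hf]
    ring
  rw [e, norm_mul, wy_ee_norm, one_mul]
  refine (wy_lattice_sum f (X + 1) (A * s) hK (by positivity) hfs hfb (V *ᵥ z) _ (fun n => (wy_ee_norm _).le)).trans ?_
  rw [← mul_assoc]
  exact mul_le_mul_of_nonneg_right (wy_1b_budget X _ hX hstd.dim) hs0

end Claimed.Agent.R258
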