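/-
Row 258, [Weyl].  Leaf P-WY-CONT: continuity of `F = ϑ Q`.   PROVED (helper197).
-/
import Claimed.Agent.R258.Weyl.W1b

set_option autoImplicit false
open Matrix

namespace Claimed.Agent.R258

theorem wy_ct_amp_cont {n : Type*} [Fintype n] (H : ℝ) (f : (n → ℝ) → ℂ) (hf : wy_Amp H f) : Continuous f := by
  have hH : 0 ≤ H := (norm_nonneg _).trans (hf.bdd 0)
  have : LipschitzWith ⟨H, hH⟩ f := by
    apply LipschitzWith.of_dist_le_mul
    intro x y
    rw [dist_eq_norm, dist_eq_norm]
    exact hf.lip x y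
  exact this.continuous

/-- **Continuity of `F = ϑ Q`.**  On the support of `ϑ` only the finitely many `n` with `|n|_∞ ≤ X + k X max|V|` contribute, so `F` is globally a finite
sum of continuous functions (`χ`, `ϑ` are Lipschitz). -/
theorem wy_F_cont {ι κ : Type*} [Fintype ι] [Fintype κ] (X : ℝ) (C : Matrix ι ι ℚ) (V : Matrix ι κ ℝ)
    (Lam : Matrix κ κ ℝ) (b : κ → ℝ) (χ : (ι → ℝ) → ℂ) (ϑ : (κ → ℝ) → ℂ) (hχ : wy_Amp X χ) (hϑ : wy_Amp X ϑ) :
    Continuous fun z => ϑ z * wy_Q C V Lam b χ z := by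
  classical
  have hX : 0 ≤ X := (norm_nonneg _).trans (hχ.bdd 0)
  set Vm : ℝ := ∑ i, ∑ a, |V i a| with hVm
  have hVm0 : 0 ≤ Vm := Finset.sum_nonneg fun i _ => Finset.sum_nonneg fun a _ => abs_nonneg _
  have hVle : ∀ i a, |V i a| ≤ Vm := by
    intro i a
    calc |V i a| ≤ ∑ a, |V i a| := Finset.single_le_sum (f := fun a => |V i a|) (fun a _ => abs_nonneg _) (Finset.mem_univ a)
      _ ≤ Vm := Finset.single_le_sum (f := fun i => ∑ a, |V i a|) (fun i _ => Finset.sum_nonneg fun a _ => abs_nonneg _)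
          (Finset.mem_univ i)
  set K1 : ℝ := (Fintype.card κ : ℝ) * (Vm * X) + X with hK1
  have hK10 : 0 ≤ K1 := by positivity
  obtain ⟨N, hN, -⟩ := wy_lattice_count (0 : ι → ℝ) K1 hK10
  have key : (fun z => ϑ z * wy_Q C V Lam b χ z) = fun z => ϑ z * (ee (z ⬝ᵥ (Lam *ᵥ z) + b ⬝ᵥ z) *
      ∑ n ∈ N, χ (V *ᵥ z - wy_Z n) * ee ((V *ᵥ z) ⬝ᵥ (wy_R C *ᵥ (V *ᵥ z - wy_Z n)))) := by
    funext z
    by_cases hz : ϑ z = 0
    · rw [hz, zero_mul, zero_mul]
    · congr 1
      unfold wy_Q
      congr 1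
      apply tsum_eq_sum
      intro n hn
      by_contra hne
      have h1 : χ (V *ᵥ z - wy_Z n) ≠ 0 := fun h0 => hne (by rw [h0, zero_mul])
      apply hn
      apply hN
      intro i
      have h2 := hχ.supp _ h1 i
      have h3 := wy_mulVec_le V z Vm X hVm0 hVle (hϑ.supp z hz) i
      have h4 : |(0 : ι → ℝ) i - (n i : ℝ)| ≤ |(V *ᵥ z - wy_Z n) i| + |(V *ᵥ z) i| := by
        have : (0 : ι → ℝ) i - (n i : ℝ) = (V *ᵥ z - wy_Z n) i - (V *ᵥ z) i := by
          simp [wy_Z]
        rw [this]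
        exact abs_sub _ _
      rw [hK1]
      linarith
  rw [key]
  have c1 := wy_ct_amp_cont X χ hχ
  have c2 := wy_ct_amp_cont X ϑ hϑ
  have c3 := wy_ee_continuous
  have cV : Continuous fun z : κ → ℝ => V *ᵥ z := Continuous.matrix_mulVec continuous_const continuous_id
  have cL : Continuous fun z : κ → ℝ => Lam *ᵥ z := Continuous.matrix_mulVec continuous_const continuous_id
  apply c2.mul
  apply Continuous.mul
  · apply c3.comp
    apply Continuous.add
    · exact Continuous.dotProduct continuous_id cL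
    · exact Continuous.dotProduct continuous_const continuous_id
  · apply continuous_finsetSum
    intro n _
    apply Continuous.mul
    · exact c1.comp (cV.sub continuous_const)
    · apply c3.comp
      apply Continuous.dotProduct cV
      exact Continuous.matrix_mulVec continuous_const (cV.sub continuous_const)

end Claimed.Agent.R258
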