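/-
Row 258, [Weyl].  Leaf P-WY-BESSEL: Bessel inequality for an arithmetic progression of separated frequencies on a box.
It replaces Plancherel + Lipschitz continuity of the Fourier transform + disjoint balls (charts.tex l.207-228).  Mathlib only (+ `ee`).
-/
import Claimed.Agent.R258.Pack004

set_option autoImplicit false
open MeasureTheory Matrix

namespace Claimed.Agent.R258

/-- abstract Selberg / Boas-Bellman inequality: `∑ |⟪φ_ℓ, F⟫|² ≤ ‖F‖² max_ℓ ∑_ℓ' |⟪φ_ℓ, φ_ℓ'⟫|`.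
PLAN: `a_ℓ = ⟪φ_ℓ, F⟫`, `Σ := ∑ |a_ℓ|² = re ⟪∑ a_ℓ φ_ℓ, F⟫ ≤ ‖F‖ ‖∑ a_ℓ φ_ℓ‖`, `‖∑ a_ℓ φ_ℓ‖² ≤ ∑_{ℓ,ℓ'} |a_ℓ||a_ℓ'||⟪φ_ℓ,φ_ℓ'⟫| ≤
∑_{ℓ,ℓ'} ½(|a_ℓ|²+|a_ℓ'|²)|⟪φ_ℓ,φ_ℓ'⟫| ≤ A Σ`; hence `Σ² ≤ ‖F‖² A Σ`. -/
theorem wy_selberg {E : Type*} [NormedAddCommGroup E] [InnerProductSpace ℂ E] {α : Type*} (s : Finset α) (φ : α → E) (F : E)
    (A : ℝ) (hA0 : 0 ≤ A) (hA : ∀ l ∈ s, ∑ l' ∈ s, ‖inner ℂ (φ l) (φ l')‖ ≤ A) :
    ∑ l ∈ s, ‖inner ℂ (φ l) F‖ ^ 2 ≤ A * ‖F‖ ^ 2 := by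
  set a : α → ℂ := fun l => inner ℂ (φ l) F with ha
  set S : ℝ := ∑ l ∈ s, ‖a l‖ ^ 2 with hS
  have hS0 : 0 ≤ S := Finset.sum_nonneg fun l _ => by positivity
  set v : E := ∑ l ∈ s, a l • φ l with hv
  have h1 : inner ℂ v F = (S : ℂ) := by
    rw [hv, sum_inner, hS, Complex.ofReal_sum]
    refine Finset.sum_congr rfl fun l _ => ?_
    rw [inner_smul_left, Complex.ofReal_pow, ← Complex.conj_mul']
  have h2 : S ≤ ‖v‖ * ‖F‖ := by
    have := norm_inner_le_norm (𝕜 := ℂ) v F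
    rw [h1, Complex.norm_real, Real.norm_of_nonneg hS0] at this
    exact this
  have h3 : ‖v‖ ^ 2 ≤ A * S := by
    have e1 : ((‖v‖ ^ 2 : ℝ) : ℂ) = ∑ l ∈ s, ∑ l' ∈ s, (starRingEnd ℂ) (a l) * (a l' * inner ℂ (φ l) (φ l')) := by
      have h0 : ((‖v‖ ^ 2 : ℝ) : ℂ) = inner ℂ v v := by
        rw [inner_self_eq_norm_sq_to_K (𝕜 := ℂ) v]
        simp
      rw [h0]
      conv_lhs => rw [hv]
      rw [sum_inner]
      refine Finset.sum_congr rfl fun l _ => ?_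
      rw [inner_smul_left, inner_sum, Finset.mul_sum]
      refine Finset.sum_congr rfl fun l' _ => ?_
      rw [inner_smul_right]
    have e2 : ‖v‖ ^ 2 ≤ ∑ l ∈ s, ∑ l' ∈ s, ‖a l‖ * ‖a l'‖ * ‖inner ℂ (φ l) (φ l')‖ := by
      have : ‖v‖ ^ 2 = ‖((‖v‖ ^ 2 : ℝ) : ℂ)‖ := by
        rw [Complex.norm_real, Real.norm_of_nonneg (by positivity)]
      rw [this, e1]
      refine (norm_sum_le _ _).trans (Finset.sum_le_sum fun l _ => ?_)
      refine (norm_sum_le _ _).trans (Finset.sum_le_sum fun l' _ => ?_)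
      rw [norm_mul, norm_mul, RCLike.norm_conj, mul_assoc]
    have e3 : ∑ l ∈ s, ∑ l' ∈ s, ‖a l‖ * ‖a l'‖ * ‖inner ℂ (φ l) (φ l')‖
        ≤ ∑ l ∈ s, ∑ l' ∈ s, (‖a l‖ ^ 2 / 2 * ‖inner ℂ (φ l) (φ l')‖ + ‖a l'‖ ^ 2 / 2 * ‖inner ℂ (φ l') (φ l)‖) := by
      refine Finset.sum_le_sum fun l _ => Finset.sum_le_sum fun l' _ => ?_
      rw [norm_inner_symm (φ l') (φ l), ← add_mul]
      refine mul_le_mul_of_nonneg_right ?_ (norm_nonneg _)
      nlinarith [sq_nonneg (‖a l‖ - ‖a l'‖)]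
    have e4 : ∑ l ∈ s, ∑ l' ∈ s, (‖a l‖ ^ 2 / 2 * ‖inner ℂ (φ l) (φ l')‖ + ‖a l'‖ ^ 2 / 2 * ‖inner ℂ (φ l') (φ l)‖)
        = ∑ l ∈ s, ‖a l‖ ^ 2 * ∑ l' ∈ s, ‖inner ℂ (φ l) (φ l')‖ := by
      simp_rw [Finset.sum_add_distrib]
      rw [Finset.sum_comm (f := fun l l' => ‖a l'‖ ^ 2 / 2 * ‖inner ℂ (φ l') (φ l)‖), ← Finset.sum_add_distrib]
      refine Finset.sum_congr rfl fun l _ => ?_
      rw [← Finset.mul_sum]
      ring
    have e5 : ∑ l ∈ s, ‖a l‖ ^ 2 * ∑ l' ∈ s, ‖inner ℂ (φ l) (φ l')‖ ≤ A * S := by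
      rw [hS, Finset.mul_sum]
      refine Finset.sum_le_sum fun l hl => ?_
      rw [mul_comm]
      exact mul_le_mul_of_nonneg_right (hA l hl) (by positivity)
    linarith
  rcases hS0.eq_or_lt with h0 | hpos
  · rw [← h0]
    positivity
  · have h4 : S ^ 2 ≤ A * S * ‖F‖ ^ 2 := by
      calc S ^ 2 ≤ (‖v‖ * ‖F‖) ^ 2 := pow_le_pow_left₀ hS0 h2 2
        _ = ‖v‖ ^ 2 * ‖F‖ ^ 2 := mul_pow _ _ _
        _ ≤ A * S * ‖F‖ ^ 2 := mul_le_mul_of_nonneg_right h3 (by positivity)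
    have h5 : S * S ≤ S * (A * ‖F‖ ^ 2) := by nlinarith
    exact le_of_mul_le_mul_left h5 hpos

/-- one-dimensional oscillatory integral: `|∫_{-R}^{R} e(s x) dx| ≤ 1/(π |s|)` -/
theorem wy_osc_1d (R s : ℝ) (hs : s ≠ 0) : ‖∫ x in (-R)..R, ee (s * x)‖ ≤ 1 / (Real.pi * |s|) := by
  have hc : (2 * Real.pi * s * Complex.I : ℂ) ≠ 0 := by
    simp [hs, Real.pi_ne_zero]
  have e : ∀ x : ℝ, ee (s * x) = Complex.exp ((2 * Real.pi * s * Complex.I : ℂ) * x) := by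
    intro x
    unfold ee
    congr 1
    push_cast
    ring
  simp_rw [e]
  rw [integral_exp_mul_complex hc, ← e, ← e, norm_div]
  have h1 : ‖(2 * Real.pi * s * Complex.I : ℂ)‖ = 2 * Real.pi * |s| := by
    simp [abs_of_pos Real.pi_pos]
  rw [h1]
  have h2 : ‖ee (s * R) - ee (s * -R)‖ ≤ 2 := by
    refine (norm_sub_le _ _).trans ?_
    rw [wy_ee_norm, wy_ee_norm]
    norm_num
  have hpos : 0 < Real.pi * |s| := mul_pos Real.pi_pos (abs_pos.mpr hs)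
  rw [div_le_div_iff₀ (by linarith) hpos]
  nlinarith

theorem wy_bs_triv_1d (R s : ℝ) (hR : 0 ≤ R) : ‖∫ x in (-R)..R, ee (s * x)‖ ≤ 2 * R := by
  have := intervalIntegral.norm_integral_le_of_norm_le_const (a := -R) (b := R) (C := 1)
    (f := fun x => ee (s * x)) (fun x _ => (wy_ee_norm _).le)
  refine this.trans ?_
  rw [abs_of_nonneg (by linarith)]
  linarith

theorem wy_bs_box_eq {κ : Type*} [Fintype κ] (R : ℝ) :
    {z : κ → ℝ | ∀ a, |z a| ≤ R} = Set.Icc (fun _ => -R) (fun _ => R) := by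
  ext z
  simp only [Set.mem_ofPred_eq, Set.mem_Icc, Pi.le_def, abs_le]
  exact forall_and

theorem wy_bs_box_meas {κ : Type*} [Fintype κ] (R : ℝ) : MeasurableSet {z : κ → ℝ | ∀ a, |z a| ≤ R} := by
  rw [wy_bs_box_eq]
  exact measurableSet_Icc

theorem wy_bs_ee_sum {κ : Type*} (t : Finset κ) (f : κ → ℝ) : ee (∑ a ∈ t, f a) = ∏ a ∈ t, ee (f a) := by
  classical
  induction t using Finset.induction_on with
  | empty => simp [wy_ee_zero]
  | insert a t ha ih => rw [Finset.sum_insert ha, Finset.prod_insert ha, wy_ee_add, ih]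

theorem wy_bs_box_int {κ : Type*} [Fintype κ] (R : ℝ) (hR : 0 ≤ R) (ζ : κ → ℝ) :
    ∫ z in {z : κ → ℝ | ∀ a, |z a| ≤ R}, ee (ζ ⬝ᵥ z) = ∏ a, ∫ x in (-R)..R, ee (ζ a * x) := by
  rw [← integral_indicator (wy_bs_box_meas R)]
  have e : ∀ z : κ → ℝ, ({z : κ → ℝ | ∀ a, |z a| ≤ R}).indicator (fun z => ee (ζ ⬝ᵥ z)) z
      = ∏ a, (Set.Icc (-R) R).indicator (fun x => ee (ζ a * x)) (z a) := by
    intro z
    by_cases hz : z ∈ {z : κ → ℝ | ∀ a, |z a| ≤ R}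
    · rw [Set.indicator_of_mem hz]
      have : ∀ a, (Set.Icc (-R) R).indicator (fun x => ee (ζ a * x)) (z a) = ee (ζ a * z a) := by
        intro a
        rw [Set.indicator_of_mem]
        exact abs_le.mp (hz a)
      simp_rw [this]
      rw [← wy_bs_ee_sum]
      rfl
    · rw [Set.indicator_of_notMem hz]
      simp only [Set.mem_ofPred_eq, not_forall] at hz
      obtain ⟨a, ha⟩ := hz
      symm
      refine Finset.prod_eq_zero (Finset.mem_univ a) ?_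
      rw [Set.indicator_of_notMem]
      intro h
      exact ha (abs_le.mpr h)
  simp_rw [e]
  rw [integral_fintype_prod_volume_eq_prod (fun a x => (Set.Icc (-R) R).indicator (fun x => ee (ζ a * x)) x)]
  refine Finset.prod_congr rfl fun a _ => ?_
  rw [integral_indicator measurableSet_Icc, integral_Icc_eq_integral_Ioc,
    intervalIntegral.integral_of_le (by linarith)]

/-- oscillatory integral over the box: `|∫_{[-R,R]^κ} e(ζ·z) dz| ≤ (2R)^{k-1} / (π |ζ_j|)`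
(`MeasureTheory.integral_fintype_prod_eq_prod` for `∏_j 1_{[-R,R]}(z_j) e(ζ_j z_j)`; the other factors are `≤ 2R`). -/
theorem wy_osc_box {κ : Type*} [Fintype κ] (R : ℝ) (hR : 0 < R) (ζ : κ → ℝ) (j : κ) (hj : ζ j ≠ 0) :
    ‖∫ z in {z : κ → ℝ | ∀ a, |z a| ≤ R}, ee (ζ ⬝ᵥ z)‖ ≤ (2 * R) ^ (Fintype.card κ - 1) / (Real.pi * |ζ j|) := by
  classical
  rw [wy_bs_box_int R hR.le, norm_prod, ← Finset.mul_prod_erase _ _ (Finset.mem_univ j)]
  have h1 : ∏ a ∈ Finset.univ.erase j, ‖∫ x in (-R)..R, ee (ζ a * x)‖ ≤ (2 * R) ^ (Fintype.card κ - 1) := by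
    have : Fintype.card κ - 1 = (Finset.univ.erase j).card := by
      rw [Finset.card_erase_of_mem (Finset.mem_univ j), Finset.card_univ]
    rw [this, ← Finset.prod_const]
    exact Finset.prod_le_prod (fun a _ => norm_nonneg _) fun a _ => wy_bs_triv_1d R _ hR.le
  calc _ ≤ 1 / (Real.pi * |ζ j|) * (2 * R) ^ (Fintype.card κ - 1) :=
        mul_le_mul (wy_osc_1d R _ hj) h1 (Finset.prod_nonneg fun a _ => norm_nonneg _) (by positivity)
    _ = _ := by ring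

/-- volume of the box -/
theorem wy_vol_box {κ : Type*} [Fintype κ] (R : ℝ) (hR : 0 ≤ R) :
    volume {z : κ → ℝ | ∀ a, |z a| ≤ R} = ENNReal.ofReal ((2 * R) ^ Fintype.card κ) := by
  rw [wy_bs_box_eq, Real.volume_Icc_pi, Finset.prod_const, Finset.card_univ,
    ENNReal.ofReal_pow (by positivity)]
  congr 2
  ring

theorem wy_bs_harm (n M : ℕ) (h : n ≤ M) : ∑ i ∈ Finset.range n, 1 / ((i : ℝ) + 1) ≤ 1 + Real.log M := by
  have h1 : ((harmonic n : ℚ) : ℝ) = ∑ i ∈ Finset.range n, 1 / ((i : ℝ) + 1) := by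
    unfold harmonic
    push_cast
    simp
  rw [← h1]
  rcases Nat.eq_zero_or_pos n with rfl | hn
  · simp only [harmonic_zero, Rat.cast_zero]
    have : 0 ≤ Real.log M := Real.log_natCast_nonneg M
    linarith
  · refine (harmonic_le_one_add_log n).trans ?_
    have : Real.log n ≤ Real.log M := Real.log_le_log (by exact_mod_cast hn) (by exact_mod_cast h)
    linarith

/-- harmonic sums: `∑_{ℓ' < M, ℓ' ≠ ℓ} 1/|ℓ - ℓ'| ≤ 2 (1 + log M)` -/
theorem wy_harmonic (M l : ℕ) (hl : l < M) :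
    ∑ l' ∈ (Finset.range M).erase l, 1 / |(l : ℝ) - (l' : ℝ)| ≤ 2 * (1 + Real.log M) := by
  have hsplit : (Finset.range M).erase l = Finset.range l ∪ Finset.Ico (l + 1) M := by
    ext x
    simp only [Finset.mem_erase, Finset.mem_range, Finset.mem_union, Finset.mem_Ico]
    omega
  have hdisj : Disjoint (Finset.range l) (Finset.Ico (l + 1) M) := by
    rw [Finset.disjoint_left]
    intro x hx hx'
    simp only [Finset.mem_range, Finset.mem_Ico] at hx hx'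
    omega
  rw [hsplit, Finset.sum_union hdisj]
  have h1 : ∑ l' ∈ Finset.range l, 1 / |(l : ℝ) - (l' : ℝ)| = ∑ i ∈ Finset.range l, 1 / ((i : ℝ) + 1) := by
    rw [← Finset.sum_range_reflect]
    refine Finset.sum_congr rfl fun i hi => ?_
    rw [Finset.mem_range] at hi
    have : ((l - 1 - i : ℕ) : ℝ) = (l : ℝ) - 1 - i := by
      rw [Nat.cast_sub (by omega), Nat.cast_sub (by omega)]
      simp
    rw [this]
    have : (l : ℝ) - ((l : ℝ) - 1 - i) = (i : ℝ) + 1 := by ring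
    rw [this, abs_of_nonneg (by positivity)]
  have h2 : ∑ l' ∈ Finset.Ico (l + 1) M, 1 / |(l : ℝ) - (l' : ℝ)| = ∑ i ∈ Finset.range (M - (l + 1)), 1 / ((i : ℝ) + 1) := by
    rw [Finset.sum_Ico_eq_sum_range]
    refine Finset.sum_congr rfl fun i _ => ?_
    have : (l : ℝ) - ((l + 1 + i : ℕ) : ℝ) = -((i : ℝ) + 1) := by
      push_cast
      ring
    rw [this, abs_neg, abs_of_nonneg (by positivity)]
  rw [h1, h2]
  have := wy_bs_harm l M hl.le
  have := wy_bs_harm (M - (l + 1)) M (by omega)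
  linarith

theorem wy_bs_memLp {κ : Type*} [Fintype κ] (R : ℝ) (hR : 0 ≤ R) (G : (κ → ℝ) → ℂ) (hG : AEStronglyMeasurable G volume)
    (hsupp : ∀ z, G z ≠ 0 → ∀ a, |z a| ≤ R) (D : ℝ) (hbd : ∀ z, ‖G z‖ ≤ D) : MemLp G 2 volume := by
  have e : G = ({z : κ → ℝ | ∀ a, |z a| ≤ R}).indicator G := by
    funext z
    by_cases hz : z ∈ {z : κ → ℝ | ∀ a, |z a| ≤ R}
    · rw [Set.indicator_of_mem hz]
    · rw [Set.indicator_of_notMem hz]
      by_contra h
      exact hz (hsupp z h)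
  rw [e, memLp_indicator_iff_restrict (wy_bs_box_meas R)]
  have : IsFiniteMeasure (volume.restrict {z : κ → ℝ | ∀ a, |z a| ≤ R}) := by
    refine ⟨?_⟩
    rw [Measure.restrict_apply_univ, wy_vol_box R hR]
    exact ENNReal.ofReal_lt_top
  exact MemLp.of_bound hG.restrict D (Filter.Eventually.of_forall hbd)

theorem wy_bs_inner_toLp {X : Type*} [MeasurableSpace X] {μ : Measure X} (f g : X → ℂ) (hf : MemLp f 2 μ) (hg : MemLp g 2 μ) :
    inner ℂ (hf.toLp f) (hg.toLp g) = ∫ z, g z * (starRingEnd ℂ) (f z) ∂μ := by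
  rw [L2.inner_def]
  refine integral_congr_ae ?_
  filter_upwards [hf.coeFn_toLp, hg.coeFn_toLp] with z h1 h2
  rw [h1, h2, RCLike.inner_apply]

theorem wy_bs_norm_toLp {X : Type*} [MeasurableSpace X] {μ : Measure X} (f : X → ℂ) (hf : MemLp f 2 μ) :
    ‖hf.toLp f‖ ^ 2 = ∫ z, ‖f z‖ ^ 2 ∂μ := by
  have h1 := inner_self_eq_norm_sq_to_K (𝕜 := ℂ) (hf.toLp f)
  rw [wy_bs_inner_toLp] at h1
  have h2 : ∫ z, f z * (starRingEnd ℂ) (f z) ∂μ = ((∫ z, ‖f z‖ ^ 2 ∂μ : ℝ) : ℂ) := by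
    rw [← integral_complex_ofReal]
    refine integral_congr_ae (Filter.Eventually.of_forall fun z => ?_)
    simp only
    rw [Complex.mul_conj', Complex.ofReal_pow]
  rw [h2] at h1
  have h3 : ((∫ z, ‖f z‖ ^ 2 ∂μ : ℝ) : ℂ) = ((‖hf.toLp f‖ ^ 2 : ℝ) : ℂ) := by
    rw [h1]
    simp
  exact (Complex.ofReal_injective h3).symm

/-- **Bessel inequality on the box** `[-R,R]^κ`, `R ≥ 1`, for the frequencies `ξ0 + ℓ Ω`, `ℓ < M`, `|Ω_j| ≥ 1` for one `j`.
PLAN: `E = Lp ℂ 2 volume` on `κ → ℝ`, `φ_ℓ = 1_box e((ξ0 + ℓΩ)·z)`, `F` as element of `L²` (bounded, measurable, supported in the box);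
`⟪φ_ℓ, F⟫ = ∫ F e(-(ξ0+ℓΩ)·z)` (`MeasureTheory.L2.inner_def`), `⟪φ_ℓ, φ_ℓ'⟫ = ∫_box e((ℓ'-ℓ)Ω·z)`: `= (2R)^k` for `ℓ = ℓ'`, and
`≤ (2R)^{k-1}/(π|ℓ-ℓ'|)` otherwise; row sums `≤ (2R)^k + (2R)^{k-1} (2/π)(1 + log M) ≤ (2R)^k (2 + log M)`. -/
theorem wy_bessel {κ : Type*} [Fintype κ] (R : ℝ) (hR : 1 ≤ R) (F : (κ → ℝ) → ℂ) (hF : AEStronglyMeasurable F volume)
    (hsupp : ∀ z, F z ≠ 0 → ∀ a, |z a| ≤ R) (D : ℝ) (hbd : ∀ z, ‖F z‖ ≤ D) (ξ0 Ω : κ → ℝ) (j : κ) (hΩ : 1 ≤ |Ω j|) (M : ℕ) :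
    ∑ l ∈ Finset.range M, ‖∫ z, F z * ee (-((ξ0 + (l : ℝ) • Ω) ⬝ᵥ z))‖ ^ 2
      ≤ (2 * R) ^ Fintype.card κ * (2 + Real.log M) * ∫ z, ‖F z‖ ^ 2 := by
  classical
  have hR0 : 0 < R := by linarith
  set B : Set (κ → ℝ) := {z : κ → ℝ | ∀ a, |z a| ≤ R} with hB
  have hBm : MeasurableSet B := wy_bs_box_meas R
  set φ : ℕ → (κ → ℝ) → ℂ := fun l => B.indicator (fun z => ee ((ξ0 + (l : ℝ) • Ω) ⬝ᵥ z)) with hφ
  have hcont : ∀ l : ℕ, Continuous fun z : κ → ℝ => ee ((ξ0 + (l : ℝ) • Ω) ⬝ᵥ z) := by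
    intro l
    refine wy_ee_continuous.comp ?_
    unfold dotProduct
    fun_prop
  have hφL : ∀ l, MemLp (φ l) 2 volume := by
    intro l
    refine wy_bs_memLp R hR0.le (φ l) ?_ ?_ 1 ?_
    · exact ((hcont l).aestronglyMeasurable).indicator hBm
    · intro z hz
      by_contra h
      exact hz (Set.indicator_of_notMem (s := B) h _)
    · intro z
      by_cases hz : z ∈ B
      · simp only [hφ]
        rw [Set.indicator_of_mem hz, wy_ee_norm]
      · simp only [hφ]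
        rw [Set.indicator_of_notMem hz, norm_zero]
        exact zero_le_one
  have hFL : MemLp F 2 volume := wy_bs_memLp R hR0.le F hF hsupp D hbd
  have e1 : ∀ l : ℕ, inner ℂ ((hφL l).toLp (φ l)) (hFL.toLp F) = ∫ z, F z * ee (-((ξ0 + (l : ℝ) • Ω) ⬝ᵥ z)) := by
    intro l
    rw [wy_bs_inner_toLp]
    refine integral_congr_ae (Filter.Eventually.of_forall fun z => ?_)
    simp only [hφ]
    by_cases hz : z ∈ B
    · rw [Set.indicator_of_mem hz, wy_ee_neg_conj]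
    · have : F z = 0 := by
        by_contra h
        exact hz (hsupp z h)
      rw [this, zero_mul, zero_mul]
  have e2 : ∀ l l' : ℕ, inner ℂ ((hφL l).toLp (φ l)) ((hφL l').toLp (φ l'))
      = ∫ z in B, ee ((((l' : ℝ) - l) • Ω) ⬝ᵥ z) := by
    intro l l'
    rw [wy_bs_inner_toLp, ← integral_indicator hBm]
    refine integral_congr_ae (Filter.Eventually.of_forall fun z => ?_)
    simp only [hφ]
    by_cases hz : z ∈ B
    · rw [Set.indicator_of_mem hz, Set.indicator_of_mem hz, Set.indicator_of_mem hz, ← wy_ee_neg_conj, ← wy_ee_add]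
      congr 1
      simp only [add_dotProduct, smul_dotProduct, sub_smul, sub_dotProduct]
      ring
    · rw [Set.indicator_of_notMem hz, Set.indicator_of_notMem hz, Set.indicator_of_notMem hz, zero_mul]
  set k := Fintype.card κ with hk
  have hk1 : 1 ≤ k := Fintype.card_pos_iff.mpr ⟨j⟩
  have hdiag : ∀ l : ℕ, ‖inner ℂ ((hφL l).toLp (φ l)) ((hφL l).toLp (φ l))‖ = (2 * R) ^ k := by
    intro l
    rw [e2]
    simp only [sub_self, zero_smul, zero_dotProduct, wy_ee_zero]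
    rw [setIntegral_const, Measure.real, wy_vol_box R hR0.le, ENNReal.toReal_ofReal (by positivity)]
    simp only [mul_one, Complex.real_smul]
    rw [Complex.norm_real, Real.norm_of_nonneg (by positivity)]
  have hoff : ∀ l l' : ℕ, l' ≠ l → ‖inner ℂ ((hφL l).toLp (φ l)) ((hφL l').toLp (φ l'))‖
      ≤ (2 * R) ^ (k - 1) / Real.pi * (1 / |(l : ℝ) - (l' : ℝ)|) := by
    intro l l' hne
    rw [e2]
    have hd : (l' : ℝ) - l ≠ 0 := by
      rw [sub_ne_zero]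
      exact_mod_cast hne
    have hΩ0 : Ω j ≠ 0 := by
      intro h
      rw [h, abs_zero] at hΩ
      linarith
    have hj : (((l' : ℝ) - l) • Ω) j ≠ 0 := by
      simp only [Pi.smul_apply, smul_eq_mul]
      exact mul_ne_zero hd hΩ0
    refine (wy_osc_box R hR0 _ j hj).trans ?_
    simp only [Pi.smul_apply, smul_eq_mul]
    rw [abs_mul, abs_sub_comm (l : ℝ) (l' : ℝ), div_mul_div_comm, mul_one]
    have hpos : 0 < |(l' : ℝ) - l| := abs_pos.mpr hd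
    refine div_le_div_of_nonneg_left (by positivity) (by positivity) ?_
    refine mul_le_mul_of_nonneg_left ?_ Real.pi_pos.le
    exact le_mul_of_one_le_right hpos.le hΩ
  have hrow : ∀ l ∈ Finset.range M, ∑ l' ∈ Finset.range M,
      ‖inner ℂ ((hφL l).toLp (φ l)) ((hφL l').toLp (φ l'))‖ ≤ (2 * R) ^ k * (2 + Real.log M) := by
    intro l hl
    rw [← Finset.add_sum_erase _ _ hl, hdiag]
    have hlM : l < M := Finset.mem_range.mp hl
    have h1 : ∑ l' ∈ (Finset.range M).erase l, ‖inner ℂ ((hφL l).toLp (φ l)) ((hφL l').toLp (φ l'))‖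
        ≤ (2 * R) ^ (k - 1) / Real.pi * (2 * (1 + Real.log M)) := by
      refine le_trans (Finset.sum_le_sum fun l' hl' => hoff l l' (Finset.ne_of_mem_erase hl')) ?_
      rw [← Finset.mul_sum]
      exact mul_le_mul_of_nonneg_left (wy_harmonic M l hlM) (by positivity)
    have hlog : 0 ≤ Real.log M := Real.log_natCast_nonneg M
    have h2 : (2 * R) ^ k = (2 * R) ^ (k - 1) * (2 * R) := by
      rw [← pow_succ]
      congr 1
      omega
    have h3 : (2 * R) ^ (k - 1) / Real.pi * (2 * (1 + Real.log M)) ≤ (2 * R) ^ k * (1 + Real.log M) := by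
      rw [h2, div_mul_eq_mul_div, div_le_iff₀ Real.pi_pos]
      have hp : (0 : ℝ) ≤ (2 * R) ^ (k - 1) := by positivity
      have hpi : (1 : ℝ) ≤ Real.pi := by linarith [Real.pi_gt_three]
      have : 2 * (1 + Real.log M) ≤ (2 * R) * (1 + Real.log M) * Real.pi := by
        have : (1 : ℝ) ≤ R * Real.pi := by nlinarith
        nlinarith
      calc (2 * R) ^ (k - 1) * (2 * (1 + Real.log M)) ≤ (2 * R) ^ (k - 1) * ((2 * R) * (1 + Real.log M) * Real.pi) :=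
            mul_le_mul_of_nonneg_left this hp
        _ = _ := by ring
    linarith
  have hA0 : 0 ≤ (2 * R) ^ k * (2 + Real.log M) := by
    have hlog : 0 ≤ Real.log M := Real.log_natCast_nonneg M
    positivity
  have := wy_selberg (Finset.range M) (fun l => (hφL l).toLp (φ l)) (hFL.toLp F) _ hA0 hrow
  simp only [e1] at this
  rw [wy_bs_norm_toLp] at this
  exact this

end Claimed.Agent.R258
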