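/-
Row 258, [Weyl].  Leaf P-WY-W2: a function with a large Fourier coefficient which is almost invariant under `M` multiples of a
modulated translation has a bounded modulation frequency (charts.tex l.207-228).   PROVED (helper197).
-/
import Claimed.Agent.R258.Weyl.Bessel
import Claimed.Agent.R258.Pack004

set_option autoImplicit false
open MeasureTheory Matrix

namespace Claimed.Agent.R258

theorem wy_2_num (T M : ℝ) (hT : 1 ≤ T) (hM : 0 ≤ M) (h : M ≤ T * (2 + Real.log (M + 1))) : M ≤ 1 + 4 * T ^ 2 := by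
  have hT0 : 0 < T := by linarith
  have h1 : Real.log ((M + 1) / (2 * T)) ≤ (M + 1) / (2 * T) - 1 := Real.log_le_sub_one_of_pos (by positivity)
  rw [Real.log_div (by positivity) (by positivity)] at h1
  have h2 : Real.log (2 * T) ≤ 2 * T - 1 := Real.log_le_sub_one_of_pos (by positivity)
  have h3 : Real.log (M + 1) ≤ (M + 1) / (2 * T) + 2 * T - 2 := by linarith
  have h4 : T * (2 + Real.log (M + 1)) ≤ T * ((M + 1) / (2 * T) + 2 * T) := mul_le_mul_of_nonneg_left (by linarith) hT0.le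
  have h5 : T * ((M + 1) / (2 * T) + 2 * T) = (M + 1) / 2 + 2 * T ^ 2 := by
    field_simp
  linarith

theorem wy_2_budget (X : ℝ) (k : ℕ) (hX : 1 ≤ X) (hk : (k : ℝ) ≤ 1 + Real.log X) :
    2 * X * (2 * (X + 1)) ^ k ≤ wy_qp 40 X ∧ 8 * (4 * X ^ 4 * ((2 * X) ^ k) ^ 2) ^ 2 ≤ wy_qp 40 X := by
  have hX0 : 0 ≤ X := by linarith
  have qX : X ≤ wy_qp 1 X := wy_le_qp le_rfl hX
  have q2 : (2 : ℝ) ≤ wy_qp 2 X := by exact_mod_cast wy_cast_le_qp 2 hX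
  have q4 : (4 : ℝ) ≤ wy_qp 4 X := by exact_mod_cast wy_cast_le_qp 4 hX
  have q8 : (8 : ℝ) ≤ wy_qp 8 X := by exact_mod_cast wy_cast_le_qp 8 hX
  have q1 : (1 : ℝ) ≤ wy_qp 0 X := wy_one_le_qp 0 hX
  have e2X : 2 * X ≤ wy_qp 3 X := wy_mul_le_qp (c := 2) (c' := 1) hX (by norm_num) q2 qX
  constructor
  · have e1 : X + 1 ≤ wy_qp 3 X := wy_add_le_qp (c := 1) (c' := 0) hX qX q1
    have e2 : 2 * (X + 1) ≤ wy_qp 5 X := wy_mul_le_qp (c := 2) (c' := 3) hX (by norm_num) q2 e1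
    have e3 : (2 * (X + 1)) ^ k ≤ wy_qp 6 X := wy_pow_le_qp hX (by positivity) e2 hk
    exact (wy_mul_le_qp (c := 3) (c' := 6) hX (by positivity) e2X e3).trans (wy_qp_mono (by norm_num) hX)
  · have f1 : (2 * X) ^ k ≤ wy_qp 4 X := wy_pow_le_qp hX (by positivity) e2X hk
    have f2 : ((2 * X) ^ k) ^ 2 ≤ wy_qp 8 X := by
      rw [sq]
      exact wy_mul_le_qp (c := 4) (c' := 4) hX (by positivity) f1 f1
    have g1 : X ^ 2 ≤ wy_qp 2 X := by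
      rw [sq]
      exact wy_mul_le_qp (c := 1) (c' := 1) hX hX0 qX qX
    have g2 : X ^ 4 ≤ wy_qp 4 X := by
      have : X ^ 4 = X ^ 2 * X ^ 2 := by ring
      rw [this]
      exact wy_mul_le_qp (c := 2) (c' := 2) hX (by positivity) g1 g1
    have g3 : 4 * X ^ 4 ≤ wy_qp 8 X := wy_mul_le_qp (c := 4) (c' := 4) hX (by norm_num) q4 g2
    have g4 : 4 * X ^ 4 * ((2 * X) ^ k) ^ 2 ≤ wy_qp 16 X := wy_mul_le_qp (c := 8) (c' := 8) hX (by positivity) g3 f2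
    have g5 : (4 * X ^ 4 * ((2 * X) ^ k) ^ 2) ^ 2 ≤ wy_qp 32 X := by
      rw [sq]
      exact wy_mul_le_qp (c := 16) (c' := 16) hX (by positivity) g4 g4
    exact wy_mul_le_qp (c := 8) (c' := 32) hX (by norm_num) q8 g5

variable {κ : Type*} [Fintype κ]

/-- integral of a bounded function vanishing off the box -/
theorem wy_2_int_le {E : Type*} [NormedAddCommGroup E] [NormedSpace ℝ E] (G : (κ → ℝ) → E) (R D : ℝ) (hR : 0 ≤ R)
    (hsupp : ∀ z, G z ≠ 0 → ∀ a, |z a| ≤ R) (hbd : ∀ z, ‖G z‖ ≤ D) :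
    ‖∫ z, G z‖ ≤ D * (2 * R) ^ Fintype.card κ := by
  have h0 : ∀ z, z ∉ {z : κ → ℝ | ∀ a, |z a| ≤ R} → G z = 0 := by
    intro z hz
    by_contra hne
    exact hz (hsupp z hne)
  rw [← setIntegral_eq_integral_of_forall_compl_eq_zero h0]
  have hv := wy_vol_box (κ := κ) R hR
  have hfin : volume {z : κ → ℝ | ∀ a, |z a| ≤ R} < ⊤ := by rw [hv]; exact ENNReal.ofReal_lt_top
  refine (norm_setIntegral_le_of_norm_le_const hfin (fun z _ => hbd z)).trans (le_of_eq ?_)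
  rw [Measure.real, hv, ENNReal.toReal_ofReal (by positivity)]

theorem wy_2_integrable (F : (κ → ℝ) → ℂ) (R D : ℝ) (hR : 0 ≤ R) (hF : AEStronglyMeasurable F volume)
    (hsupp : ∀ z, F z ≠ 0 → ∀ a, |z a| ≤ R) (hbd : ∀ z, ‖F z‖ ≤ D) : Integrable F volume := by
  have h0 : ∀ z, z ∉ {z : κ → ℝ | ∀ a, |z a| ≤ R} → F z = 0 := by
    intro z hz
    by_contra hne
    exact hz (hsupp z hne)
  have hv := wy_vol_box (κ := κ) R hR
  have hfin : volume {z : κ → ℝ | ∀ a, |z a| ≤ R} ≠ ⊤ := by rw [hv]; exact ENNReal.ofReal_ne_top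
  have : IntegrableOn F {z : κ → ℝ | ∀ a, |z a| ≤ R} volume :=
    Measure.integrableOn_of_bounded hfin hF (Filter.Eventually.of_forall hbd)
  exact this.integrable_of_forall_notMem_eq_zero h0

theorem wy_2_phase_meas (ξ : κ → ℝ) : AEStronglyMeasurable (fun z : κ → ℝ => ee (-(ξ ⬝ᵥ z))) volume := by
  apply Continuous.aestronglyMeasurable
  apply wy_ee_continuous.comp
  exact (Continuous.dotProduct continuous_const continuous_id).neg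

/-- one modulated translation moves the large Fourier coefficient -/
theorem wy_2_shift (F : (κ → ℝ) → ℂ) (X η : ℝ) (hX : 0 ≤ X) (hF : AEStronglyMeasurable F volume)
    (hsupp : ∀ z, F z ≠ 0 → ∀ a, |z a| ≤ X) (hbd : ∀ z, ‖F z‖ ≤ X) (ξ0 v ω : κ → ℝ) (hv : ∀ a, |v a| ≤ 1) (u : ℂ) (hu : ‖u‖ = 1)
    (hE : ∀ z, ‖F (z + v) - u * ee (ω ⬝ᵥ z) * F z‖ ≤ η) :
    ‖∫ z, F z * ee (-(ξ0 ⬝ᵥ z))‖ - η * (2 * (X + 1)) ^ Fintype.card κ ≤ ‖∫ z, F z * ee (-((ξ0 - ω) ⬝ᵥ z))‖ := by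
  have hFi := wy_2_integrable F X X hX hF hsupp hbd
  have hone : ∀ ξ : κ → ℝ, ∀ᵐ z : κ → ℝ ∂volume, ‖ee (-(ξ ⬝ᵥ z))‖ ≤ 1 :=
    fun ξ => Filter.Eventually.of_forall fun z => (wy_ee_norm _).le
  -- first integral
  have I1 : ∫ z, F (z + v) * ee (-(ξ0 ⬝ᵥ z)) = (∫ z, F z * ee (-(ξ0 ⬝ᵥ z))) * ee (ξ0 ⬝ᵥ v) := by
    have h1 := integral_add_right_eq_self (μ := (volume : Measure (κ → ℝ))) (fun z => F z * ee (-(ξ0 ⬝ᵥ (z - v)))) v
    simp only [add_sub_cancel_right] at h1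
    rw [h1, ← integral_mul_const]
    congr 1
    funext z
    rw [mul_assoc, ← wy_ee_add]
    congr 2
    rw [dotProduct_sub]
    ring
  have I2 : ∫ z, u * ee (ω ⬝ᵥ z) * F z * ee (-(ξ0 ⬝ᵥ z)) = u * ∫ z, F z * ee (-((ξ0 - ω) ⬝ᵥ z)) := by
    rw [← integral_const_mul]
    congr 1
    funext z
    have : ee (-((ξ0 - ω) ⬝ᵥ z)) = ee (ω ⬝ᵥ z) * ee (-(ξ0 ⬝ᵥ z)) := by
      rw [← wy_ee_add]
      congr 1
      rw [sub_dotProduct]
      ring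
    rw [this]
    ring
  have i1 : Integrable (fun z => F (z + v) * ee (-(ξ0 ⬝ᵥ z))) volume :=
    (hFi.comp_add_right v).mul_bdd (wy_2_phase_meas ξ0) (hone ξ0)
  have i2 : Integrable (fun z => u * ee (ω ⬝ᵥ z) * F z * ee (-(ξ0 ⬝ᵥ z))) volume := by
    have h1 : Integrable (fun z => F z * ee (-((ξ0 - ω) ⬝ᵥ z))) volume := hFi.mul_bdd (wy_2_phase_meas _) (hone _)
    have h2 := h1.const_mul u
    refine h2.congr (Filter.Eventually.of_forall fun z => ?_)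
    have : ee (-((ξ0 - ω) ⬝ᵥ z)) = ee (ω ⬝ᵥ z) * ee (-(ξ0 ⬝ᵥ z)) := by
      rw [← wy_ee_add]
      congr 1
      rw [sub_dotProduct]
      ring
    simp only [this]
    ring
  have hdiff : ‖(∫ z, F (z + v) * ee (-(ξ0 ⬝ᵥ z))) - ∫ z, u * ee (ω ⬝ᵥ z) * F z * ee (-(ξ0 ⬝ᵥ z))‖
      ≤ η * (2 * (X + 1)) ^ Fintype.card κ := by
    rw [← integral_sub i1 i2]
    apply wy_2_int_le _ (X + 1) η (by linarith)
    · intro z hz a
      by_contra hcon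
      push Not at hcon
      apply hz
      have h1 : F z = 0 := by
        by_contra hne
        have := hsupp z hne a
        linarith
      have h2 : F (z + v) = 0 := by
        by_contra hne
        have h3 := hsupp _ hne a
        have h4 : |z a| ≤ |(z + v) a| + |v a| := by
          have : z a = (z + v) a - v a := by simp
          rw [this]
          exact abs_sub _ _
        linarith [hv a]
      rw [h1, h2]
      ring
    · intro z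
      have : F (z + v) * ee (-(ξ0 ⬝ᵥ z)) - u * ee (ω ⬝ᵥ z) * F z * ee (-(ξ0 ⬝ᵥ z))
          = (F (z + v) - u * ee (ω ⬝ᵥ z) * F z) * ee (-(ξ0 ⬝ᵥ z)) := by ring
      rw [this, norm_mul, wy_ee_norm, mul_one]
      exact hE z
  rw [I1, I2] at hdiff
  have h3 := norm_sub_norm_le ((∫ z, F z * ee (-(ξ0 ⬝ᵥ z))) * ee (ξ0 ⬝ᵥ v)) (u * ∫ z, F z * ee (-((ξ0 - ω) ⬝ᵥ z)))
  rw [norm_mul, norm_mul, wy_ee_norm, hu, mul_one, one_mul] at h3
  linarith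

/-- **(W2)**.  PLAN.  `F^(ξ) := ∫ F e(-ξ·z)`.  For `1 ≤ ℓ ≤ M`:  `∫ F(z + ℓh) e(-ξ0·z) dz = e(ξ0·ℓh) F^(ξ0)` (`integral_add_right_eq_self`) and
`∫ u e(ℓΩ·z) F(z) e(-ξ0·z) dz = u F^(ξ0 - ℓΩ)`; the integrand of the difference vanishes off `[-X-1,X+1]^κ` and is `≤ η = 1/qp c X`, so
`|F^(ξ0 - ℓΩ)| ≥ 1/X - (2X+2)^k η ≥ 1/(2X)`.  If `|Ω_j| ≥ 1` for some `j`, `wy_bessel` (with `R = X`, `-Ω`, `M + 1` frequencies) gives
`M/(4X²) ≤ (2X)^k (2 + log (M+1)) (2X)^k X²`; since `2 + log (M+1) ≤ 2 √(M+1) ≤ 4 √M`, this fails for `M > 256 X^8 (2X)^{4k}`.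
All of `(2X+2)^k · 2X` and `256 X^8 (2X)^{4k}` are `≤ qp c X` (`k ≤ 1 + log X`; use `Weyl/Qp.lean`). -/
theorem wy_W2 : ∃ c : ℕ, ∀ {κ : Type*} [Fintype κ] (X : ℝ) (F : (κ → ℝ) → ℂ) (ξ0 h Ω : κ → ℝ) (M : ℕ),
    1 ≤ X → (Fintype.card κ : ℝ) ≤ 1 + Real.log X → AEStronglyMeasurable F volume →
    (∀ z, F z ≠ 0 → ∀ a, |z a| ≤ X) → (∀ z, ‖F z‖ ≤ X) →
    1 / X ≤ ‖∫ z, F z * ee (-(ξ0 ⬝ᵥ z))‖ →
    wy_qp c X ≤ (M : ℝ) →
    (∀ l : ℕ, 1 ≤ l → l ≤ M → (∀ a, |(l : ℝ) * h a| ≤ 1) ∧ ∃ u : ℂ, ‖u‖ = 1 ∧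
      ∀ z, ‖F (z + (l : ℝ) • h) - u * ee (((l : ℝ) • Ω) ⬝ᵥ z) * F z‖ ≤ 1 / wy_qp c X) →
    ∀ a, |Ω a| < 1 := by
  refine ⟨40, ?_⟩
  intro κ _ X F ξ0 h Ω M hX hk hF hsupp hbd hbig hM hinv
  by_contra hcon
  push Not at hcon
  obtain ⟨j, hj⟩ := hcon
  have hX0 : 0 < X := by linarith
  obtain ⟨b1, b2⟩ := wy_2_budget X (Fintype.card κ) hX hk
  set Qc := wy_qp 40 X with hQc
  have hQ0 : 0 < Qc := wy_qp_pos _ _
  set k := Fintype.card κ with hkdef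
  -- every multiple carries a large coefficient
  have hlarge : ∀ l : ℕ, 1 ≤ l → l ≤ M → 1 / (2 * X) ≤ ‖∫ z, F z * ee (-((ξ0 + (l : ℝ) • (-Ω)) ⬝ᵥ z))‖ := by
    intro l hl1 hlM
    obtain ⟨hv, u, hu, hE⟩ := hinv l hl1 hlM
    have h1 := wy_2_shift F X (1 / Qc) hX0.le hF hsupp hbd ξ0 ((l : ℝ) • h) ((l : ℝ) • Ω)
      (fun a => by simpa using hv a) u hu hE
    have h2 : 1 / Qc * (2 * (X + 1)) ^ k ≤ 1 / (2 * X) := by
      rw [div_mul_eq_mul_div, one_mul, div_le_div_iff₀ hQ0 (by positivity)]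
      linarith
    have e : ξ0 + (l : ℝ) • (-Ω) = ξ0 - (l : ℝ) • Ω := by rw [smul_neg, sub_eq_add_neg]
    rw [e]
    have h3 : 1 / X - 1 / (2 * X) = 1 / (2 * X) := by field_simp; ring
    linarith
  have hbes := wy_bessel X hX F hF hsupp X hbd ξ0 (-Ω) j (by rw [Pi.neg_apply, abs_neg]; exact hj) (M + 1)
  have hlow : (M : ℝ) * (1 / (2 * X)) ^ 2 ≤
      ∑ l ∈ Finset.range (M + 1), ‖∫ z, F z * ee (-((ξ0 + (l : ℝ) • (-Ω)) ⬝ᵥ z))‖ ^ 2 := by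
    rw [Finset.sum_range_succ']
    have h1 : (M : ℝ) * (1 / (2 * X)) ^ 2 ≤
        ∑ l ∈ Finset.range M, ‖∫ z, F z * ee (-((ξ0 + ((l + 1 : ℕ) : ℝ) • (-Ω)) ⬝ᵥ z))‖ ^ 2 := by
      calc (M : ℝ) * (1 / (2 * X)) ^ 2 = ∑ _l ∈ Finset.range M, (1 / (2 * X)) ^ 2 := by simp
        _ ≤ _ := by
            apply Finset.sum_le_sum
            intro l hl
            apply pow_le_pow_left₀ (by positivity)
            exact hlarge (l + 1) (by omega) (by have := Finset.mem_range.mp hl; omega)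
    exact h1.trans (le_add_of_nonneg_right (by positivity))
  have hL2 : ∫ z, ‖F z‖ ^ 2 ≤ X ^ 2 * (2 * X) ^ k := by
    have := wy_2_int_le (fun z => ‖F z‖ ^ 2) X (X ^ 2) hX0.le
      (fun z hz => hsupp z (fun h0 => hz (by simp [h0])))
      (fun z => by
        rw [Real.norm_eq_abs, abs_of_nonneg (by positivity)]
        exact pow_le_pow_left₀ (norm_nonneg _) (hbd z) 2)
    exact (le_abs_self _).trans this
  set T : ℝ := 4 * X ^ 4 * ((2 * X) ^ k) ^ 2 with hT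
  have hlog0 : 0 ≤ 2 + Real.log ((M + 1 : ℕ) : ℝ) := by
    have : 0 ≤ Real.log ((M + 1 : ℕ) : ℝ) := Real.log_natCast_nonneg _
    linarith
  have hMT : (M : ℝ) ≤ T * (2 + Real.log ((M : ℝ) + 1)) := by
    have h1 : (M : ℝ) * (1 / (2 * X)) ^ 2 ≤ (2 * X) ^ k * (2 + Real.log ((M + 1 : ℕ) : ℝ)) * (X ^ 2 * (2 * X) ^ k) :=
      (hlow.trans hbes).trans (mul_le_mul_of_nonneg_left hL2 (by positivity))
    have h2 : (1 / (2 * X)) ^ 2 * (4 * X ^ 2) = 1 := by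
      field_simp
      ring
    calc (M : ℝ) = (M : ℝ) * (1 / (2 * X)) ^ 2 * (4 * X ^ 2) := by rw [mul_assoc, h2, mul_one]
      _
        ≤ (2 * X) ^ k * (2 + Real.log ((M + 1 : ℕ) : ℝ)) * (X ^ 2 * (2 * X) ^ k) * (4 * X ^ 2) :=
          mul_le_mul_of_nonneg_right h1 (by positivity)
      _ = _ := by rw [hT]; push_cast; ring
  have hT1 : 1 ≤ T := by
    have h1 : (1 : ℝ) ≤ X ^ 4 := one_le_pow₀ hX
    have h2 : (1 : ℝ) ≤ ((2 * X) ^ k) ^ 2 := one_le_pow₀ (one_le_pow₀ (by linarith))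
    have h3 : (1 : ℝ) ≤ X ^ 4 * ((2 * X) ^ k) ^ 2 := one_le_mul_of_one_le_of_one_le h1 h2
    rw [hT]
    linarith
  have hfin := wy_2_num T M hT1 (by positivity) hMT
  have : 1 + 4 * T ^ 2 < 8 * T ^ 2 := by nlinarith
  linarith

end Claimed.Agent.R258
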