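/-
Row 258, [Weyl].  Leaf P-WY-ISO: antisymmetrisation of the return bound gives isotropy (charts.tex l.229-235); leaf P-WY-ALG: the matrix identity
`2Λ + VᵀCV - VᵀAV_f = 2Λ_* + V_sᵀ C_sk V_s` in the form used for the last step (charts.tex l.318-334).   Pure finite-dimensional algebra.   PROVED (helper197).
-/
import Claimed.Agent.R258.Weyl.Lin

set_option autoImplicit false
open Matrix

namespace Claimed.Agent.R258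

variable {ι κ : Type*} [Fintype ι] [Fintype κ]

/-- `h'ᵀ Ω(h,m) - hᵀ Ω(h',m') = d'ᵀ A d - m'ᵀ A m`, `d = V h - m`, `d' = V h' - m'`, `A = C - Cᵀ` (`Λ` symmetric). -/
theorem wy_antisymm (C : Matrix ι ι ℚ) (V : Matrix ι κ ℝ) (Lam : Matrix κ κ ℝ) (hLam : Lamᵀ = Lam)
    (h h' : κ → ℝ) (m m' : ι → ℤ) :
    h' ⬝ᵥ wy_Omega C V Lam h m - h ⬝ᵥ wy_Omega C V Lam h' m' =
      (V *ᵥ h' - wy_Z m') ⬝ᵥ ((wy_R C - (wy_R C)ᵀ) *ᵥ (V *ᵥ h - wy_Z m))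
        - wy_Z m' ⬝ᵥ ((wy_R C - (wy_R C)ᵀ) *ᵥ wy_Z m) := by
  have hsym : h' ⬝ᵥ (Lam *ᵥ h) = h ⬝ᵥ (Lam *ᵥ h') := by
    rw [Matrix.dotProduct_mulVec, ← Matrix.mulVec_transpose, hLam, dotProduct_comm]
  unfold wy_Omega
  simp only [dotProduct_sub, Matrix.add_mulVec, dotProduct_add, Matrix.smul_mulVec, dotProduct_smul, wy_is_left,
    wy_is_sandwich, wy_is_A, Matrix.mulVec_sub, sub_dotProduct, smul_eq_mul]
  rw [hsym]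
  ring

/-- **Isotropy.**  Two returns of size `s ≤ a` with `2 k s B + 2 d² Xc s² < 1` have `m'ᵀ A m = 0`:
by `wy_antisymm`, `|m'ᵀAm| ≤ |h'·Ω| + |h·Ω'| + |d'ᵀAd| ≤ 2 k s B + d² (2 Xc) s² < 1`, and `m'ᵀAm` is an integer (`m, m' ∈ P ℤ^ι`, `P C` integral). -/
theorem wy_iso (P : ℕ) (C : Matrix ι ι ℚ) (V : Matrix ι κ ℝ) (Lam : Matrix κ κ ℝ) (a B Xc s : ℝ)
    (hLam : Lamᵀ = Lam) (hP : wy_Clears P C) (hC : ∀ i j, |((C i j : ℚ) : ℝ)| ≤ Xc)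
    (hret : wy_RetBound P C V Lam a B) (hs0 : 0 ≤ s) (hsa : s ≤ a)
    (hsmall : 2 * (Fintype.card κ : ℝ) * s * B + 2 * (Fintype.card ι : ℝ) ^ 2 * Xc * s ^ 2 < 1)
    (h h' : κ → ℝ) (m m' : ι → ℤ) (hr : wy_IsRet P V s h m) (hr' : wy_IsRet P V s h' m') :
    wy_Z m' ⬝ᵥ ((wy_R C - (wy_R C)ᵀ) *ᵥ wy_Z m) = 0 := by
  rcases isEmpty_or_nonempty ι with hemp | ⟨⟨i0⟩⟩
  · simp [dotProduct]
  have hXc : 0 ≤ Xc := (abs_nonneg _).trans (hC i0 i0)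
  obtain ⟨hm, hh, hd⟩ := hr
  obtain ⟨hm', hh', hd'⟩ := hr'
  have hΩ := hret h m ⟨hm, fun j => (hh j).trans hsa, fun i => (hd i).trans hsa⟩
  have hΩ' := hret h' m' ⟨hm', fun j => (hh' j).trans hsa, fun i => (hd' i).trans hsa⟩
  have b1 := wy_dot_le h' (wy_Omega C V Lam h m) s B hs0 hh' hΩ
  have b2 := wy_dot_le h (wy_Omega C V Lam h' m') s B hs0 hh hΩ'
  have hA : ∀ i j, |(wy_R C - (wy_R C)ᵀ) i j| ≤ 2 * Xc := by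
    intro i j
    rw [Matrix.sub_apply, Matrix.transpose_apply, wy_R_apply, wy_R_apply]
    have := abs_sub (((C i j : ℚ) : ℝ)) (((C j i : ℚ) : ℝ))
    linarith [hC i j, hC j i]
  have b3 : ∀ i, |((wy_R C - (wy_R C)ᵀ) *ᵥ (V *ᵥ h - wy_Z m)) i| ≤ (Fintype.card ι : ℝ) * (2 * Xc * s) :=
    wy_mulVec_le _ _ _ _ (by linarith) hA (fun i => hd i)
  have b4 := wy_dot_le (V *ᵥ h' - wy_Z m') _ s _ hs0 (fun i => hd' i) b3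
  have key := wy_antisymm C V Lam hLam h h' m m'
  -- integrality
  obtain ⟨z1, hz1⟩ := wy_int_pairing P C hP m' m hm'
  obtain ⟨z2, hz2⟩ := wy_int_pairing P C hP m m' hm
  have hint : wy_Z m' ⬝ᵥ ((wy_R C - (wy_R C)ᵀ) *ᵥ wy_Z m) = ((z1 - z2 : ℤ) : ℝ) := by
    rw [wy_is_A, hz1, hz2]
    push_cast
    ring
  rw [hint] at key ⊢
  have hlt : |((z1 - z2 : ℤ) : ℝ)| < 1 := by
    have e : ((z1 - z2 : ℤ) : ℝ) = (V *ᵥ h' - wy_Z m') ⬝ᵥ ((wy_R C - (wy_R C)ᵀ) *ᵥ (V *ᵥ h - wy_Z m))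
        - (h' ⬝ᵥ wy_Omega C V Lam h m - h ⬝ᵥ wy_Omega C V Lam h' m') := by
      rw [key]; ring
    rw [e]
    have t1 := abs_sub ((V *ᵥ h' - wy_Z m') ⬝ᵥ ((wy_R C - (wy_R C)ᵀ) *ᵥ (V *ᵥ h - wy_Z m)))
      (h' ⬝ᵥ wy_Omega C V Lam h m - h ⬝ᵥ wy_Omega C V Lam h' m')
    have t2 := abs_sub (h' ⬝ᵥ wy_Omega C V Lam h m) (h ⬝ᵥ wy_Omega C V Lam h' m')
    nlinarith
  have : |z1 - z2| < 1 := by exact_mod_cast hlt
  have h0 : z1 - z2 = 0 := Int.abs_lt_one_iff.mp this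
  rw [h0]
  simp

/-- real form of the isotropy -/
theorem wy_is_iso_real (C Pf : Matrix ι ι ℚ) (hiso : Pfᵀ * (C - Cᵀ) * Pf = 0) :
    (wy_R Pf)ᵀ * (wy_R C * wy_R Pf) = (wy_R Pf)ᵀ * ((wy_R C)ᵀ * wy_R Pf) := by
  have := congrArg wy_R hiso
  rw [wy_R_mul, wy_R_mul, wy_R_sub, wy_R_transpose, wy_R_transpose, wy_R_zero, Matrix.mul_sub, Matrix.sub_mul, sub_eq_zero,
    Matrix.mul_assoc, Matrix.mul_assoc] at this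
  exact this

omit [Fintype κ] in
theorem wy_is_matrix (C : Matrix ι ι ℚ) (V : Matrix ι κ ℝ) (Lam : Matrix κ κ ℝ) (Pf : Matrix ι ι ℚ)
    (hiso : Pfᵀ * (C - Cᵀ) * Pf = 0) :
    (2 : ℝ) • wy_LamStar C V Lam Pf = (2 : ℝ) • Lam + Vᵀ * wy_R C * V
      - (V - wy_R Pf * V)ᵀ * ((1 / 2 : ℝ) • (wy_R C - (wy_R C)ᵀ)) * (V - wy_R Pf * V)
      - (V - wy_R Pf * V)ᵀ * (wy_R C - (wy_R C)ᵀ) * (wy_R Pf * V) := by
  have h0 := wy_is_iso_real C Pf hiso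
  set Cr := wy_R C
  set Pr := wy_R Pf
  have h1 : Vᵀ * (Prᵀ * (Cr * (Pr * V))) = Vᵀ * (Prᵀ * (Crᵀ * (Pr * V))) := by
    rw [← Matrix.mul_assoc Cr, ← Matrix.mul_assoc Prᵀ, h0, Matrix.mul_assoc, Matrix.mul_assoc]
  unfold wy_LamStar
  simp only [Matrix.mul_sub, Matrix.sub_mul, Matrix.mul_add, Matrix.add_mul, Matrix.transpose_sub,
    Matrix.transpose_mul, Matrix.transpose_transpose, Matrix.transpose_smul, Matrix.mul_assoc, Matrix.smul_mul, Matrix.mul_smul]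
  rw [h1]
  module

/-- **The final matrix identity.**  Only `Pfᵀ A Pf = 0` and `Pf m = m` are used:
`2Λ_* h = Ω(h,m) - V_sᵀ C_sk V_s h - V_sᵀ A P_f (V h - m)`.
(Expand `V = V_f + V_s`; `V_fᵀ C_sk V_f = 0`, `V_fᵀ A P_f = 0`, `V_fᵀ A m = 0` by isotropy.) -/
theorem wy_alg (C : Matrix ι ι ℚ) (V : Matrix ι κ ℝ) (Lam : Matrix κ κ ℝ) (Pf : Matrix ι ι ℚ)
    (hiso : Pfᵀ * (C - Cᵀ) * Pf = 0) (h : κ → ℝ) (m : ι → ℤ) (hfix : wy_R Pf *ᵥ wy_Z m = wy_Z m) :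
    (2 : ℝ) • (wy_LamStar C V Lam Pf *ᵥ h) =
      wy_Omega C V Lam h m
        - ((V - wy_R Pf * V)ᵀ * ((1 / 2 : ℝ) • (wy_R C - (wy_R C)ᵀ)) * (V - wy_R Pf * V)) *ᵥ h
        - ((V - wy_R Pf * V)ᵀ * (wy_R C - (wy_R C)ᵀ)) *ᵥ (wy_R Pf *ᵥ (V *ᵥ h - wy_Z m)) := by
  have h0 := wy_is_iso_real C Pf hiso
  have hmat := wy_is_matrix C V Lam Pf hiso
  -- the terms with `m`
  have hm : (Vᵀ * (wy_R C - (wy_R C)ᵀ)) *ᵥ wy_Z m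
      = ((V - wy_R Pf * V)ᵀ * (wy_R C - (wy_R C)ᵀ)) *ᵥ (wy_R Pf *ᵥ wy_Z m) := by
    have e1 : ((wy_R Pf * V)ᵀ * (wy_R C - (wy_R C)ᵀ)) *ᵥ (wy_R Pf *ᵥ wy_Z m) = 0 := by
      rw [Matrix.mulVec_mulVec, Matrix.transpose_mul, Matrix.mul_assoc, Matrix.mul_assoc, Matrix.sub_mul, Matrix.mul_sub, h0,
        sub_self, Matrix.mul_zero, Matrix.zero_mulVec]
    rw [Matrix.transpose_sub, Matrix.sub_mul, Matrix.sub_mulVec, e1, sub_zero, hfix]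
  rw [← Matrix.smul_mulVec, hmat]
  unfold wy_Omega
  rw [hm, Matrix.mulVec_sub (wy_R Pf), Matrix.mulVec_sub, Matrix.sub_mulVec, Matrix.sub_mulVec,
    ← Matrix.mulVec_mulVec h _ (wy_R Pf * V), ← Matrix.mulVec_mulVec h (wy_R Pf) V]
  abel

end Claimed.Agent.R258
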