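/-
Row 258, [Weyl].  Leaf P-WY-W3A: from the return bound to the frame (charts.tex l.229-300).   PROVED (helper197).  Uses `geo4_returns`, `geo4_small_return`, `wy_iso` as
black boxes; the rest is bookkeeping with `Weyl/Qp.lean`.

PLAN.  `d = card ι`, `k = card κ`, `Cd = geo4_C d = ((d+1)!)²`, `W = (1/P) • V`.
  `a₁ = 1 / (8 (k+1) (d+1)² X²)`   (then `a₁ ≤ 1/X ≤ a` and `2 k a₁ B + 2 d² X a₁² < 1`, since `B ≤ X`, `|C i j| ≤ qHeight ≤ X`),
  `β₀ = a₁ / (P Cd)`,   `(g, h, S)` from `geo4_returns W β₀`,   `β = β₀ / (2 Cd (d + k + 1))`.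
 * short : `g_il² ≤ Cd/β₀² ≤ (Cd/β₀)²`;   shortV : `∑_l g_il V_la = P ∑_l g_il W_la`, `≤ P Cd/β₀`.
 * iso : for `j ∉ S`: `h^j = W u + w`, `u_a², w_l² ≤ Cd β₀² ≤ (Cd β₀)² = (a₁/P)²`; so `(u, P h^j)` is a return of size `a₁`
   (`V u - P h^j = -P w`); `wy_iso` for two of them gives `(P h^{j})ᵀ A (P h^{j'}) = 0`; divide by `P²` and pass from `ℝ` to `ℚ` (`Rat.cast_injective`).
 * small : `w = n - W t`, `|w_l| = |P n_l - (V t)_l| / P ≤ β`, `∑ t² + ∑ w² ≤ (k + d) β²`, `(Cd/β₀²) (k+d) β² < 1`; `geo4_small_return`.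
 * `1/β`, `Cd/β₀`, `P Cd/β₀ ≤ qp c X`: products of `Cd ≤ (qp 2 X')²`-type factors (`wy_fact_le_qp` with `d + 1 ≤ 1 + log (e X)`…; simplest: bound
   `(d+1)! ≤ (d+1)^(d+1)` and use `wy_pow_le_qp`), `P ≤ X`, `X²`, `(k+1)`, `(d+1)²`, `(d+k+1)`.
-/
import Claimed.Agent.R258.Pack004
import Claimed.Agent.R258.Weyl.Iso
import Claimed.Agent.R258.Pack005

set_option autoImplicit false
open Matrix

namespace Claimed.Agent.R258

theorem wy_3a_budget (X Pr : ℝ) (d k : ℕ) (hX : 1 ≤ X) (hd : (d : ℝ) ≤ 1 + Real.log X) (hk : (k : ℝ) ≤ 1 + Real.log X)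
    (hP1 : 1 ≤ Pr) (hPX : Pr ≤ X) :
    2 * ((d : ℝ) + k + 1) * geo4_C d ^ 2 * Pr ^ 2 * (8 * ((k : ℝ) + 1) * ((d : ℝ) + 1) ^ 2 * X ^ 2) ≤ wy_qp 49 X := by
  have hd0 : (0 : ℝ) ≤ d := by positivity
  have hk0 : (0 : ℝ) ≤ k := by positivity
  have q1 : (1 : ℝ) ≤ wy_qp 0 X := wy_one_le_qp 0 hX
  have qd : (d : ℝ) ≤ wy_qp 1 X := wy_dim_le_qp hX hd
  have qk : (k : ℝ) ≤ wy_qp 1 X := wy_dim_le_qp hX hk
  have qd1 : (d : ℝ) + 1 ≤ wy_qp 3 X := wy_add_le_qp (c := 1) (c' := 0) hX qd q1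
  have qk1 : (k : ℝ) + 1 ≤ wy_qp 3 X := wy_add_le_qp (c := 1) (c' := 0) hX qk q1
  have qdk : (d : ℝ) + k + 1 ≤ wy_qp 6 X := by
    have := wy_add_le_qp (c := 1) (c' := 3) hX qd qk1
    linarith
  have qX : X ≤ wy_qp 1 X := wy_le_qp le_rfl hX
  have qf : (((d + 1).factorial : ℕ) : ℝ) ≤ wy_qp 5 X := by
    rw [Nat.factorial_succ]
    push_cast
    exact wy_mul_le_qp (c := 3) (c' := 2) hX (by positivity) qd1 (wy_fact_le_qp hX hd)
  have qC : geo4_C d ≤ wy_qp 10 X := by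
    unfold geo4_C
    rw [sq]
    exact wy_mul_le_qp (c := 5) (c' := 5) hX (by positivity) qf qf
  have hC0 : 0 ≤ geo4_C d := by linarith [geo4_C_one_le d]
  have qC2 : geo4_C d ^ 2 ≤ wy_qp 20 X := by
    rw [sq]
    exact wy_mul_le_qp (c := 10) (c' := 10) hX hC0 qC qC
  have qP2 : Pr ^ 2 ≤ wy_qp 2 X := by
    rw [sq]
    exact wy_mul_le_qp (c := 1) (c' := 1) hX (by linarith) (hPX.trans qX) (hPX.trans qX)
  have qX2 : X ^ 2 ≤ wy_qp 2 X := by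
    rw [sq]
    exact wy_mul_le_qp (c := 1) (c' := 1) hX (by linarith) qX qX
  have qd2 : ((d : ℝ) + 1) ^ 2 ≤ wy_qp 6 X := by
    rw [sq]
    exact wy_mul_le_qp (c := 3) (c' := 3) hX (by positivity) qd1 qd1
  have q8 : (8 : ℝ) ≤ wy_qp 8 X := by exact_mod_cast wy_cast_le_qp 8 hX
  have q2 : (2 : ℝ) ≤ wy_qp 2 X := by exact_mod_cast wy_cast_le_qp 2 hX
  have e1 : 8 * ((k : ℝ) + 1) ≤ wy_qp 11 X := wy_mul_le_qp (c := 8) (c' := 3) hX (by norm_num) q8 qk1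
  have e2 : 8 * ((k : ℝ) + 1) * ((d : ℝ) + 1) ^ 2 ≤ wy_qp 17 X := wy_mul_le_qp (c := 11) (c' := 6) hX (by positivity) e1 qd2
  have e3 : 8 * ((k : ℝ) + 1) * ((d : ℝ) + 1) ^ 2 * X ^ 2 ≤ wy_qp 19 X :=
    wy_mul_le_qp (c := 17) (c' := 2) hX (by positivity) e2 qX2
  have f1 : 2 * ((d : ℝ) + k + 1) ≤ wy_qp 8 X := wy_mul_le_qp (c := 2) (c' := 6) hX (by norm_num) q2 qdk
  have f2 : 2 * ((d : ℝ) + k + 1) * geo4_C d ^ 2 ≤ wy_qp 28 X := wy_mul_le_qp (c := 8) (c' := 20) hX (by positivity) f1 qC2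
  have f3 : 2 * ((d : ℝ) + k + 1) * geo4_C d ^ 2 * Pr ^ 2 ≤ wy_qp 30 X :=
    wy_mul_le_qp (c := 28) (c' := 2) hX (by positivity) f2 qP2
  exact wy_mul_le_qp (c := 30) (c' := 19) hX (by positivity) f3 e3

/-- a single term of a sum of squares -/
theorem wy_3a_term {n : Type*} [Fintype n] (f : n → ℝ) (i : n) : f i ^ 2 ≤ ∑ j, f j ^ 2 :=
  Finset.single_le_sum (f := fun j => f j ^ 2) (fun _ _ => sq_nonneg _) (Finset.mem_univ i)

set_option maxHeartbeats 1600000 in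
theorem wy_W3a : ∃ c : ℕ, ∀ {ι κ : Type*} [Fintype ι] [DecidableEq ι] [Fintype κ] (X : ℝ) (P : ℕ) (C : Matrix ι ι ℚ)
    (V : Matrix ι κ ℝ) (Lam : Matrix κ κ ℝ) (a B : ℝ),
    wy_Std X C κ → Lamᵀ = Lam → wy_Clears P C → (P : ℝ) ≤ X → 1 / X ≤ a → B ≤ X → wy_RetBound P C V Lam a B →
    ∃ (g h : Matrix ι ι ℤ) (S : Set ι) (β : ℝ), wy_Frame (wy_qp c X) P C V g h S β := by
  refine ⟨49, ?_⟩
  intro ι κ _ _ _ X P C V Lam a B hstd hLam hP hPX haX hBX hret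
  have hX := hstd.one_le
  have hX0 : 0 < X := by linarith
  set d : ℕ := Fintype.card ι with hd
  set k : ℕ := Fintype.card κ with hk
  have hd0 : (0 : ℝ) ≤ d := by positivity
  have hk0 : (0 : ℝ) ≤ k := by positivity
  set Pr : ℝ := (P : ℝ) with hPr
  have hP1 : 1 ≤ Pr := by
    have : 1 ≤ P := hP.1
    rw [hPr]
    exact_mod_cast this
  have hP0 : 0 < Pr := by linarith
  set Cd := geo4_C d with hCd
  have hCd1 : 1 ≤ Cd := geo4_C_one_le d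
  have hCd0 : 0 < Cd := by linarith
  -- the quantity `D1`
  have hu : (1 : ℝ) ≤ (k : ℝ) + 1 := by linarith
  have hw : (1 : ℝ) ≤ ((d : ℝ) + 1) ^ 2 := by nlinarith
  have hwd : (d : ℝ) ^ 2 ≤ ((d : ℝ) + 1) ^ 2 := by nlinarith
  have hx2 : X ≤ X ^ 2 := by nlinarith
  have huw : (1 : ℝ) ≤ ((k : ℝ) + 1) * ((d : ℝ) + 1) ^ 2 := one_le_mul_of_one_le_of_one_le hu hw
  set D1 : ℝ := 8 * ((k : ℝ) + 1) * ((d : ℝ) + 1) ^ 2 * X ^ 2 with hD1
  have hD1e : D1 = 8 * ((((k : ℝ) + 1) * ((d : ℝ) + 1) ^ 2) * X ^ 2) := by rw [hD1]; ring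
  have hD8 : 8 ≤ D1 := by
    rw [hD1e]
    have : (1 : ℝ) ≤ (((k : ℝ) + 1) * ((d : ℝ) + 1) ^ 2) * X ^ 2 := one_le_mul_of_one_le_of_one_le huw (by linarith)
    linarith
  have hD0 : 0 < D1 := by linarith
  have hDX : X ≤ D1 := by
    rw [hD1e]
    have : 1 * X ≤ (((k : ℝ) + 1) * ((d : ℝ) + 1) ^ 2) * X ^ 2 := mul_le_mul huw hx2 hX0.le (by linarith)
    nlinarith
  have hDk : 8 * ((k : ℝ) * X) ≤ D1 := by
    rw [hD1e]
    have h1 : (k : ℝ) ≤ ((k : ℝ) + 1) * ((d : ℝ) + 1) ^ 2 := by nlinarith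
    have : (k : ℝ) * X ≤ (((k : ℝ) + 1) * ((d : ℝ) + 1) ^ 2) * X ^ 2 := mul_le_mul h1 hx2 hX0.le (by linarith)
    linarith
  have hDd : 8 * ((d : ℝ) ^ 2 * X) ≤ D1 := by
    rw [hD1e]
    have h1 : (d : ℝ) ^ 2 ≤ ((k : ℝ) + 1) * ((d : ℝ) + 1) ^ 2 := by nlinarith
    have : (d : ℝ) ^ 2 * X ≤ (((k : ℝ) + 1) * ((d : ℝ) + 1) ^ 2) * X ^ 2 := mul_le_mul h1 hx2 hX0.le (by linarith)
    linarith
  set a1 : ℝ := 1 / D1 with ha1
  have ha10 : 0 < a1 := by positivity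
  have ha1a : a1 ≤ a := (one_div_le_one_div_of_le hX0 hDX).trans haX
  have hD1a1 : D1 * a1 = 1 := by rw [ha1]; field_simp
  have hsmall : 2 * (k : ℝ) * a1 * B + 2 * (d : ℝ) ^ 2 * X * a1 ^ 2 < 1 := by
    have t1 : 2 * (k : ℝ) * a1 * B ≤ 1 / 4 := by
      have h1 : 2 * (k : ℝ) * a1 * B ≤ 2 * (k : ℝ) * a1 * X := mul_le_mul_of_nonneg_left hBX (by positivity)
      have h2 : 8 * ((k : ℝ) * X) * a1 ≤ D1 * a1 := mul_le_mul_of_nonneg_right hDk ha10.le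
      rw [hD1a1] at h2
      linarith
    have t2 : 2 * (d : ℝ) ^ 2 * X * a1 ^ 2 ≤ 1 / 32 := by
      have h2 : 8 * ((d : ℝ) ^ 2 * X) * a1 ≤ D1 * a1 := mul_le_mul_of_nonneg_right hDd ha10.le
      rw [hD1a1] at h2
      have h3 : 8 * a1 ≤ D1 * a1 := mul_le_mul_of_nonneg_right hD8 ha10.le
      rw [hD1a1] at h3
      have h4 : 0 ≤ (d : ℝ) ^ 2 * X * a1 := by positivity
      nlinarith
    linarith
  -- the radii
  set R0 : ℝ := D1 * Pr * Cd with hR0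
  have hR00 : 0 < R0 := by positivity
  set β0 : ℝ := 1 / R0 with hβ0
  have hβ00 : 0 < β0 := by positivity
  set s1 : ℝ := 2 * Cd * ((d : ℝ) + k + 1) with hs1
  have hs11 : 1 ≤ s1 := by
    have : 1 ≤ Cd * ((d : ℝ) + k + 1) := one_le_mul_of_one_le_of_one_le hCd1 (by linarith)
    rw [hs1]
    linarith
  set β : ℝ := β0 / s1 with hβ
  have hβpos : 0 < β := by positivity
  set ρ : ℝ := 1 / (D1 * Pr) with hρ
  have hρ0 : 0 < ρ := by positivity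
  have hρa : ρ ≤ a1 := by
    rw [hρ, ha1]
    apply one_div_le_one_div_of_le hD0
    nlinarith
  have hPρ : Pr * ρ = a1 := by rw [hρ, ha1]; field_simp
  have hCβ : Cd * β0 = ρ := by rw [hβ0, hR0, hρ]; field_simp
  obtain ⟨g, h, S, hgh, hhg, hshort, hretn⟩ := geo4_returns ((1 / Pr) • V) β0 hβ00
  set Z : ℝ := 2 * ((d : ℝ) + k + 1) * Cd ^ 2 * Pr ^ 2 * D1 with hZ
  have hZle : Z ≤ wy_qp 49 X := wy_3a_budget X Pr d k hX hstd.dim hstd.dim' hP1 hPX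
  have hdk1 : (1 : ℝ) ≤ 2 * ((d : ℝ) + k + 1) := by linarith
  have hCR : 0 < Cd * R0 := by positivity
  have z1 : Pr * (Cd * R0) ≤ Z := by
    have : Z = (2 * ((d : ℝ) + k + 1)) * (Pr * (Cd * R0)) := by rw [hZ, hR0]; ring
    rw [this]
    exact le_mul_of_one_le_left (by positivity) hdk1
  have z0 : Cd * R0 ≤ Z := le_trans (le_mul_of_one_le_left hCR.le hP1) z1
  have z2 : 1 / β ≤ Z := by
    have e : 1 / β = R0 * s1 := by rw [hβ, hβ0]; field_simp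
    have : Z = Pr * (R0 * s1) := by rw [hZ, hR0, hs1]; ring
    rw [e, this]
    exact le_mul_of_one_le_left (by positivity) hP1
  have hsq : ∀ x : ℝ, x ^ 2 ≤ Cd / β0 ^ 2 → |x| ≤ Cd * R0 := by
    intro x hx
    apply abs_le_of_sq_le_sq _ hCR.le
    have e : Cd / β0 ^ 2 = Cd * R0 ^ 2 := by rw [hβ0]; field_simp
    rw [e] at hx
    have : Cd * R0 ^ 2 ≤ (Cd * R0) ^ 2 := by
      have h0 : 0 ≤ Cd * R0 ^ 2 := by positivity
      have : (Cd * R0) ^ 2 = Cd * (Cd * R0 ^ 2) := by ring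
      rw [this]
      exact le_mul_of_one_le_left h0 hCd1
    linarith
  have hsq' : ∀ x : ℝ, x ^ 2 ≤ Cd * β0 ^ 2 → |x| ≤ ρ := by
    intro x hx
    apply abs_le_of_sq_le_sq _ hρ0.le
    rw [← hCβ]
    have : Cd * β0 ^ 2 ≤ (Cd * β0) ^ 2 := by
      have h0 : 0 ≤ Cd * β0 ^ 2 := by positivity
      have : (Cd * β0) ^ 2 = Cd * (Cd * β0 ^ 2) := by ring
      rw [this]
      exact le_mul_of_one_le_left h0 hCd1
    linarith
  have hC : ∀ i j, |((C i j : ℚ) : ℝ)| ≤ X := fun i j => (wy_abs_le_qHeight _).trans (hstd.height i j)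
  -- the columns outside `S` are returns
  have hRet : ∀ j, j ∉ S → ∃ u : κ → ℝ, wy_IsRet P V a1 u (fun i => (P : ℤ) * h i j) := by
    intro j hj
    obtain ⟨u, w, huw, hsum⟩ := hretn j hj
    have hU0 : 0 ≤ ∑ a, u a ^ 2 := Finset.sum_nonneg fun a _ => sq_nonneg _
    have hW0 : 0 ≤ ∑ l, w l ^ 2 := Finset.sum_nonneg fun a _ => sq_nonneg _
    refine ⟨u, fun i => Dvd.intro _ rfl, fun a' => ?_, fun i => ?_⟩
    · exact (hsq' _ (by linarith [wy_3a_term u a'])).trans hρa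
    · have e : (V *ᵥ u) i - (((P : ℤ) * h i j : ℤ) : ℝ) = -(Pr * w i) := by
        have h1 := huw i
        have h2 : ∑ a, ((1 / Pr) • V) i a * u a = (1 / Pr) * (V *ᵥ u) i := by
          simp only [Matrix.smul_apply, smul_eq_mul, Matrix.mulVec, dotProduct, Finset.mul_sum]
          apply Finset.sum_congr rfl
          intro a' _
          ring
        rw [h2] at h1
        push_cast
        rw [h1]
        field_simp
        ring
      rw [e, abs_neg, abs_mul, abs_of_pos hP0, ← hPρ]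
      exact mul_le_mul_of_nonneg_left (hsq' _ (by linarith [wy_3a_term w i])) hP0.le
  refine ⟨g, h, S, β, hgh, hhg, ?_, ?_, ?_, ?_, ?_⟩
  · -- beta
    rw [div_le_iff₀ (wy_qp_pos _ _)]
    have : 1 / β ≤ wy_qp 49 X := z2.trans hZle
    rw [div_le_iff₀ hβpos] at this
    linarith
  · -- short
    intro i hi l
    have h1 := hshort i hi
    have h2 : 0 ≤ ∑ a, (∑ l, (g i l : ℝ) * ((1 / Pr) • V) l a) ^ 2 := Finset.sum_nonneg fun a _ => sq_nonneg _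
    have h3 := wy_3a_term (fun l => (g i l : ℝ)) l
    exact (hsq _ (by linarith)).trans (z0.trans hZle)
  · -- shortV
    intro i hi a'
    have h1 := hshort i hi
    have h2 : 0 ≤ ∑ l, (g i l : ℝ) ^ 2 := Finset.sum_nonneg fun a _ => sq_nonneg _
    have h3 := wy_3a_term (fun a => ∑ l, (g i l : ℝ) * ((1 / Pr) • V) l a) a'
    have h4 := hsq _ (by linarith : (∑ l, (g i l : ℝ) * ((1 / Pr) • V) l a') ^ 2 ≤ Cd / β0 ^ 2)
    have e : ∑ l, (g i l : ℝ) * V l a' = Pr * ∑ l, (g i l : ℝ) * ((1 / Pr) • V) l a' := by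
      rw [Finset.mul_sum]
      apply Finset.sum_congr rfl
      intro l _
      simp only [Matrix.smul_apply, smul_eq_mul]
      field_simp
    rw [e, abs_mul, abs_of_pos hP0]
    exact (mul_le_mul_of_nonneg_left h4 hP0.le).trans (z1.trans hZle)
  · -- iso
    intro j hj j' hj'
    obtain ⟨u, hu⟩ := hRet j hj
    obtain ⟨u', hu'⟩ := hRet j' hj'
    have h0 := wy_iso P C V Lam a B X a1 hLam hP hC hret ha10.le ha1a hsmall u' u _ _ hu' hu
    have e : wy_Z (fun i => (P : ℤ) * h i j) ⬝ᵥ ((wy_R C - (wy_R C)ᵀ) *ᵥ wy_Z (fun i => (P : ℤ) * h i j'))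
        = Pr ^ 2 * (((∑ i, ∑ l, (h i j : ℚ) * (C - Cᵀ) i l * (h l j' : ℚ) : ℚ)) : ℝ) := by
      simp only [dotProduct, Matrix.mulVec, wy_Z, Matrix.sub_apply, Matrix.transpose_apply, wy_R_apply]
      push_cast
      simp only [Finset.mul_sum]
      apply Finset.sum_congr rfl
      intro i _
      apply Finset.sum_congr rfl
      intro l _
      rw [hPr]
      ring
    rw [e] at h0
    have h1 : (((∑ i, ∑ l, (h i j : ℚ) * (C - Cᵀ) i l * (h l j' : ℚ) : ℚ)) : ℝ) = 0 := by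
      rcases mul_eq_zero.mp h0 with h2 | h2
      · exact absurd h2 (by positivity)
      · exact h2
    exact_mod_cast h1
  · -- small
    intro t n ht hn i hi
    have hw : ∀ l, |(n l : ℝ) - ∑ a, ((1 / Pr) • V) l a * t a| ≤ β := by
      intro l
      have h2 : ∑ a, ((1 / Pr) • V) l a * t a = (1 / Pr) * (V *ᵥ t) l := by
        simp only [Matrix.smul_apply, smul_eq_mul, Matrix.mulVec, dotProduct, Finset.mul_sum]
        apply Finset.sum_congr rfl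
        intro a' _
        ring
      have e : (n l : ℝ) - ∑ a, ((1 / Pr) • V) l a * t a = -((1 / Pr) * ((V *ᵥ t) l - Pr * (n l : ℝ))) := by
        rw [h2]; field_simp; ring
      rw [e, abs_neg, abs_mul, abs_of_pos (by positivity : 0 < 1 / Pr)]
      have h3 : 1 / Pr ≤ 1 := by rw [div_le_one hP0]; exact hP1
      calc 1 / Pr * |(V *ᵥ t) l - Pr * (n l : ℝ)| ≤ 1 * β :=
            mul_le_mul h3 (hn l) (abs_nonneg _) (by norm_num)
        _ = β := one_mul _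
    apply geo4_small_return ((1 / Pr) • V) (fun l => g i l) n t (fun l => (n l : ℝ) - ∑ a, ((1 / Pr) • V) l a * t a)
      (Cd / β0 ^ 2) (((k : ℝ) + d) * β ^ 2) (hshort i hi) (fun l => by ring)
    · have h1 : ∑ a, t a ^ 2 ≤ (k : ℝ) * β ^ 2 := by
        calc ∑ a, t a ^ 2 ≤ ∑ _a : κ, β ^ 2 := by
              apply Finset.sum_le_sum
              intro a' _
              rw [← sq_abs]
              exact pow_le_pow_left₀ (abs_nonneg _) (ht a') 2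
          _ = _ := by simp [hk]
      have h2 : ∑ l, ((n l : ℝ) - ∑ a, ((1 / Pr) • V) l a * t a) ^ 2 ≤ (d : ℝ) * β ^ 2 := by
        calc ∑ l, ((n l : ℝ) - ∑ a, ((1 / Pr) • V) l a * t a) ^ 2 ≤ ∑ _l : ι, β ^ 2 := by
              apply Finset.sum_le_sum
              intro l _
              rw [← sq_abs]
              exact pow_le_pow_left₀ (abs_nonneg _) (hw l) 2
          _ = _ := by simp [hd]
      linarith
    · have e : Cd / β0 ^ 2 * (((k : ℝ) + d) * β ^ 2) = Cd * ((k : ℝ) + d) / s1 ^ 2 := by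
        rw [hβ]; field_simp
      rw [e, div_lt_one (by positivity)]
      have : s1 ^ 2 = 4 * Cd ^ 2 * ((d : ℝ) + k + 1) ^ 2 := by rw [hs1]; ring
      rw [this]
      have h1 : Cd ≤ Cd ^ 2 := by nlinarith
      have h2 : (k : ℝ) + d ≤ ((d : ℝ) + k + 1) ^ 2 := by nlinarith
      have h3 : Cd * ((k : ℝ) + d) ≤ Cd ^ 2 * ((d : ℝ) + k + 1) ^ 2 := mul_le_mul h1 h2 (by positivity) (by positivity)
      have h4 : 0 < Cd ^ 2 * ((d : ℝ) + k + 1) ^ 2 := by positivity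
      nlinarith

end Claimed.Agent.R258
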