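/-
Row 258, [Weyl].  Leaf P-WY-W3B: from the frame to the rational projection (charts.tex l.288-300).   PROVED (helper197).  Uses helper70's kernel projection
`s6a_ker_proj_int` (S6a/HtKer.lean) and `s6a_idem_entry_le`, `s6a_qHeight_le_of_int` (S6a/HtMisc.lean) as black boxes.

PLAN (classical decidability of `S`).  `G a b = ∑_{i ∈ S} g i a * g i b` (symmetric integer matrix), `|G a b| ≤ d Y² ≤ Bz := ⌈d Y²⌉ + 1`.
`s6a_ker_proj_int G` gives `D ≥ 1`, `Z`, `R` with `Zᵀ = Z`, `Z Z = D Z`, `G Z = 0`, `D - Z = R G`.   `Pf = (1/D) Z` (in `ℚ`).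
 * idem, symm: clear.   heights: `|Pf a b| ≤ 1` and `D Pf ∈ ℤ`, so `qHeight ≤ D ≤ kerD d Bz`; the same for `1 - Pf` (also a symmetric idempotent).
 * every column `x` of `Z` has `g_i · x = 0` for `i ∈ S`: `0 = xᵀ G x = ∑_{i ∈ S} (g_i · x)²`.
 * `x = h (g x) = ∑_j (g_j · x) h^j = ∑_{j ∉ S} (g_j · x) h^j` for such `x` (`h g = 1`); with `Frame.iso` this gives `xᵀ A y = 0` for two columns: `iso`.
 * `1 - Pf = (1/D) R G`, `(G V) b a = ∑_{i ∈ S} g i b (∑_l g i l V l a)`, `|.| ≤ d Y²`, so `|(V - Pf V) i a| ≤ d kerR d Y²`.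
 * `g_i · n = 0 (i ∈ S)` ⟹ `G n = 0` ⟹ `(1 - Pf) n = 0`.
 * `kerD d Bz = d! (1 + Bz)^d`, `kerR d Bz = d! (1+Bz)^d (d Bz)^d` are `≤ qp c Y` because `d ≤ 1 + log Y` (`wy_fact_le_qp`, `wy_pow_le_qp`).
-/
import Claimed.Agent.R258.Pack004
import Claimed.Agent.R258.Weyl.Lin
import Claimed.Agent.R258.S6a.HtKer
import Claimed.Agent.R258.S6a.HtMisc

set_option autoImplicit false
open Matrix

namespace Claimed.Agent.R258

theorem wy_3b_budget (Y : ℝ) (d : ℕ) (hY : 1 ≤ Y) (hd : (d : ℝ) ≤ 1 + Real.log Y) (Bz : ℤ) (hBz0 : 1 ≤ Bz)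
    (hBz : (Bz : ℝ) ≤ (d : ℝ) * Y ^ 2 + 2) :
    ((kerD d Bz : ℤ) : ℝ) ≤ wy_qp 30 Y ∧ (d : ℝ) * (((kerR d Bz : ℤ) : ℝ) * ((d : ℝ) * (Y * Y))) ≤ wy_qp 30 Y := by
  have hY0 : 0 ≤ Y := by linarith
  have hd0 : (0 : ℝ) ≤ d := by positivity
  have hB0 : (0 : ℝ) ≤ (Bz : ℝ) := by
    have : (1 : ℝ) ≤ (Bz : ℝ) := by exact_mod_cast hBz0
    linarith
  have q1 : (1 : ℝ) ≤ wy_qp 0 Y := wy_one_le_qp 0 hY
  have qd : (d : ℝ) ≤ wy_qp 1 Y := wy_dim_le_qp hY hd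
  have qY : Y ≤ wy_qp 1 Y := wy_le_qp le_rfl hY
  have q2 : (2 : ℝ) ≤ wy_qp 2 Y := by exact_mod_cast wy_cast_le_qp 2 hY
  have qYY : Y * Y ≤ wy_qp 2 Y := wy_mul_le_qp (c := 1) (c' := 1) hY hY0 qY qY
  have qdYY : (d : ℝ) * (Y * Y) ≤ wy_qp 3 Y := wy_mul_le_qp (c := 1) (c' := 2) hY hd0 qd qYY
  have qB : (Bz : ℝ) ≤ wy_qp 7 Y := by
    refine hBz.trans ?_
    rw [sq]
    exact wy_add_le_qp (c := 3) (c' := 2) hY qdYY q2
  have qB1 : 1 + (Bz : ℝ) ≤ wy_qp 9 Y := wy_add_le_qp (c := 0) (c' := 7) hY q1 qB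
  have qB1d : (1 + (Bz : ℝ)) ^ d ≤ wy_qp 10 Y := wy_pow_le_qp hY (by positivity) qB1 hd
  have qf : ((d.factorial : ℕ) : ℝ) ≤ wy_qp 2 Y := wy_fact_le_qp hY hd
  have qD : ((d.factorial : ℕ) : ℝ) * (1 + (Bz : ℝ)) ^ d ≤ wy_qp 12 Y :=
    wy_mul_le_qp (c := 2) (c' := 10) hY (by positivity) qf qB1d
  have qdB : (d : ℝ) * (Bz : ℝ) ≤ wy_qp 8 Y := wy_mul_le_qp (c := 1) (c' := 7) hY hd0 qd qB
  have qdBd : ((d : ℝ) * (Bz : ℝ)) ^ d ≤ wy_qp 9 Y := wy_pow_le_qp hY (by positivity) qdB hd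
  have qR : ((d.factorial : ℕ) : ℝ) * (1 + (Bz : ℝ)) ^ d * ((d : ℝ) * (Bz : ℝ)) ^ d ≤ wy_qp 21 Y :=
    wy_mul_le_qp (c := 12) (c' := 9) hY (by positivity) qD qdBd
  constructor
  · unfold kerD
    push_cast
    exact qD.trans (wy_qp_mono (by norm_num) hY)
  · unfold kerR
    push_cast
    have e1 := wy_mul_le_qp (c := 21) (c' := 3) hY (by positivity) qR qdYY
    have e2 := wy_mul_le_qp (c := 1) (c' := 21 + 3) hY hd0 qd e1
    exact e2.trans (wy_qp_mono (by norm_num) hY)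

variable {ι κ : Type*} [Fintype ι] [DecidableEq ι] [Fintype κ]

/-- the Gram-type matrix `G = ∑_{i ∈ Sf} g_i g_iᵀ` -/
def wy_3b_G (g : Matrix ι ι ℤ) (Sf : Finset ι) : Matrix ι ι ℤ :=
  Matrix.of fun a b => ∑ i ∈ Sf, g i a * g i b

omit [Fintype ι] [DecidableEq ι] in
theorem wy_3b_G_symm (g : Matrix ι ι ℤ) (Sf : Finset ι) : (wy_3b_G g Sf)ᵀ = wy_3b_G g Sf := by
  ext a b
  simp only [wy_3b_G, Matrix.transpose_apply, Matrix.of_apply]
  apply Finset.sum_congr rfl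
  intro i _
  ring

omit [DecidableEq ι] in
/-- `G M = ∑_{i ∈ Sf} g_i (g_i · M)` over any commutative ring -/
theorem wy_3b_G_mul {R : Type*} [CommRing R] {n : Type*} (g : Matrix ι ι ℤ) (Sf : Finset ι) (M : Matrix ι n R) (a : ι) (b : n) :
    ((wy_3b_G g Sf).map (fun z : ℤ => (z : R)) * M) a b = ∑ i ∈ Sf, (g i a : R) * ∑ c, (g i c : R) * M c b := by
  simp only [Matrix.mul_apply, Matrix.map_apply, wy_3b_G, Matrix.of_apply, Int.cast_sum, Int.cast_mul, Finset.sum_mul,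
    Finset.mul_sum]
  rw [Finset.sum_comm]
  apply Finset.sum_congr rfl
  intro i _
  apply Finset.sum_congr rfl
  intro c _
  ring

omit [DecidableEq ι] in
/-- the columns of a matrix killed by `G` are orthogonal to the `g_i`, `i ∈ Sf` -/
theorem wy_3b_ker (g : Matrix ι ι ℤ) (Sf : Finset ι) (Z : Matrix ι ι ℤ) (h : wy_3b_G g Sf * Z = 0) (i : ι) (hi : i ∈ Sf)
    (b : ι) : ∑ l, g i l * Z l b = 0 := by
  have h1 : ∀ a, ∑ i ∈ Sf, g i a * ∑ c, g i c * Z c b = 0 := by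
    intro a
    have := wy_3b_G_mul (R := ℤ) g Sf Z a b
    simp only [Int.cast_id] at this
    rw [← this]
    have e : (wy_3b_G g Sf).map (fun z : ℤ => z) = wy_3b_G g Sf := by ext; simp
    rw [e, h]
    simp
  have h2 : ∑ i ∈ Sf, (∑ c, g i c * Z c b) ^ 2 = 0 := by
    have : ∑ a, Z a b * ∑ i ∈ Sf, g i a * ∑ c, g i c * Z c b = 0 := by simp [h1]
    rw [← this]
    simp only [Finset.mul_sum]
    rw [Finset.sum_comm]
    apply Finset.sum_congr rfl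
    intro i _
    rw [sq, Finset.sum_mul]
    apply Finset.sum_congr rfl
    intro a _
    rw [Finset.mul_sum]
    apply Finset.sum_congr rfl
    intro c _
    ring
  have h3 := (Finset.sum_eq_zero_iff_of_nonneg (fun i _ => sq_nonneg (∑ c, g i c * Z c b))).mp h2 i hi
  exact pow_eq_zero_iff (by norm_num) |>.mp h3

/-- integer matrix as rational matrix -/
def wy_3b_Q {m n : Type*} (M : Matrix m n ℤ) : Matrix m n ℚ := M.map (fun z : ℤ => (z : ℚ))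

theorem wy_3b_Q_mul {l m n : Type*} [Fintype m] (A : Matrix l m ℤ) (B : Matrix m n ℤ) :
    wy_3b_Q (A * B) = wy_3b_Q A * wy_3b_Q B := by
  ext i j
  simp [wy_3b_Q, Matrix.mul_apply]

theorem wy_3b_iso (g h Z : Matrix ι ι ℤ) (hhg : h * g = 1) (S : Set ι) (A : Matrix ι ι ℚ)
    (hker : ∀ i ∈ S, ∀ b, ∑ l, g i l * Z l b = 0)
    (hiso : ∀ j, j ∉ S → ∀ j', j' ∉ S → ∑ i, ∑ l, (h i j : ℚ) * A i l * (h l j' : ℚ) = 0) :
    (wy_3b_Q Z)ᵀ * A * wy_3b_Q Z = 0 := by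
  have hZ : Z = h * (g * Z) := by rw [← Matrix.mul_assoc, hhg, Matrix.one_mul]
  set c := g * Z with hc
  have hcS : ∀ j ∈ S, ∀ b, wy_3b_Q c j b = 0 := by
    intro j hj b
    have := hker j hj b
    simp only [wy_3b_Q, Matrix.map_apply, hc, Matrix.mul_apply]
    exact_mod_cast this
  have e : (wy_3b_Q Z)ᵀ * A * wy_3b_Q Z = (wy_3b_Q c)ᵀ * ((wy_3b_Q h)ᵀ * A * wy_3b_Q h) * wy_3b_Q c := by
    conv_lhs => rw [hZ]
    rw [wy_3b_Q_mul, Matrix.transpose_mul]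
    simp only [Matrix.mul_assoc]
  rw [e]
  ext b b'
  rw [Matrix.mul_apply, Matrix.zero_apply]
  apply Finset.sum_eq_zero
  intro j' _
  rw [Matrix.mul_apply, Finset.sum_mul]
  apply Finset.sum_eq_zero
  intro j _
  rw [Matrix.transpose_apply]
  by_cases hj : j ∈ S
  · rw [hcS j hj]; ring
  by_cases hj' : j' ∈ S
  · rw [hcS j' hj']; ring
  have hM : ((wy_3b_Q h)ᵀ * A * wy_3b_Q h) j j' = 0 := by
    rw [← hiso j hj j' hj', Matrix.mul_apply, Finset.sum_comm]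
    apply Finset.sum_congr rfl
    intro l _
    rw [Matrix.mul_apply, Finset.sum_mul]
    apply Finset.sum_congr rfl
    intro i _
    simp [wy_3b_Q]
  rw [hM]
  ring


theorem wy_3b_Q_transpose {m n : Type*} (A : Matrix m n ℤ) : wy_3b_Q Aᵀ = (wy_3b_Q A)ᵀ := by
  ext i j
  simp [wy_3b_Q]

theorem wy_3b_RQ {m n : Type*} (A : Matrix m n ℤ) : wy_R (wy_3b_Q A) = A.map (fun z : ℤ => (z : ℝ)) := by
  ext i j
  simp [wy_R, wy_3b_Q]

theorem wy_R_smul {m n : Type*} (q : ℚ) (A : Matrix m n ℚ) : wy_R (q • A) = (q : ℝ) • wy_R A := by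
  ext i j
  simp [wy_R]

/-- the projection, with explicit bounds -/
theorem wy_3b_core (Y : ℝ) (P : ℕ) (C : Matrix ι ι ℚ) (V : Matrix ι κ ℝ) (g h : Matrix ι ι ℤ) (S : Set ι) (β : ℝ)
    (hY : 1 ≤ Y) (hfr : wy_Frame Y P C V g h S β) :
    ∃ (Bz : ℤ) (Pf : Matrix ι ι ℚ), 1 ≤ Bz ∧ (Bz : ℝ) ≤ (Fintype.card ι : ℝ) * Y ^ 2 + 2 ∧
      Pf * Pf = Pf ∧ Pfᵀ = Pf ∧ (∀ i j, (qHeight (Pf i j) : ℝ) ≤ ((kerD (Fintype.card ι) Bz : ℤ) : ℝ)) ∧
      (∀ i j, (qHeight ((1 - Pf) i j) : ℝ) ≤ ((kerD (Fintype.card ι) Bz : ℤ) : ℝ)) ∧ Pfᵀ * (C - Cᵀ) * Pf = 0 ∧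
      (∀ i a, |(V - wy_R Pf * V) i a| ≤
        (Fintype.card ι : ℝ) * (((kerR (Fintype.card ι) Bz : ℤ) : ℝ) * ((Fintype.card ι : ℝ) * (Y * Y)))) ∧
      ∀ n : ι → ℤ, (∀ i ∈ S, ∑ l, g i l * n l = 0) → wy_R Pf *ᵥ wy_Z n = wy_Z n := by
  classical
  have hY0 : 0 ≤ Y := by linarith
  set Sf : Finset ι := Finset.univ.filter (· ∈ S) with hSf
  have hmem : ∀ i, i ∈ Sf ↔ i ∈ S := fun i => by simp [hSf]
  set G := wy_3b_G g Sf with hG
  set d : ℝ := (Fintype.card ι : ℝ) with hd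
  have hd0 : 0 ≤ d := by positivity
  have hcard : (Sf.card : ℝ) ≤ d := by
    rw [hd]
    exact_mod_cast Finset.card_le_univ Sf
  -- a sum over `Sf` of terms `≤ Y * Y`
  have hsum : ∀ (x y : ι → ℝ), (∀ i ∈ Sf, |x i| ≤ Y) → (∀ i ∈ Sf, |y i| ≤ Y) → |∑ i ∈ Sf, x i * y i| ≤ d * (Y * Y) := by
    intro x y hx hy
    calc |∑ i ∈ Sf, x i * y i| ≤ ∑ i ∈ Sf, |x i * y i| := Finset.abs_sum_le_sum_abs _ _
      _ ≤ ∑ _i ∈ Sf, Y * Y := by
          apply Finset.sum_le_sum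
          intro i hi
          rw [abs_mul]
          exact mul_le_mul (hx i hi) (hy i hi) (abs_nonneg _) hY0
      _ = Sf.card * (Y * Y) := by simp
      _ ≤ d * (Y * Y) := mul_le_mul_of_nonneg_right hcard (by positivity)
  set Bz : ℤ := ⌈d * Y ^ 2⌉ + 1 with hBz
  have hceil0 : 0 ≤ ⌈d * Y ^ 2⌉ := Int.ceil_nonneg (by positivity)
  have hBz1 : 1 ≤ Bz := by omega
  have hBzle : (Bz : ℝ) ≤ d * Y ^ 2 + 2 := by
    rw [hBz]
    push_cast
    have := Int.ceil_lt_add_one (d * Y ^ 2)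
    linarith
  have hGb : ∀ a b, |G a b| ≤ Bz := by
    intro a b
    have h1 : |((G a b : ℤ) : ℝ)| ≤ d * (Y * Y) := by
      have : ((G a b : ℤ) : ℝ) = ∑ i ∈ Sf, (g i a : ℝ) * (g i b : ℝ) := by
        simp [hG, wy_3b_G]
      rw [this]
      exact hsum _ _ (fun i hi => hfr.short i ((hmem i).mp hi) a) (fun i hi => hfr.short i ((hmem i).mp hi) b)
    have h2 : ((|G a b| : ℤ) : ℝ) ≤ ((⌈d * Y ^ 2⌉ : ℤ) : ℝ) := by
      push_cast
      refine h1.trans ?_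
      rw [← sq]
      exact Int.le_ceil _
    have h3 : |G a b| ≤ ⌈d * Y ^ 2⌉ := by exact_mod_cast h2
    omega
  obtain ⟨D, Z, R, hD1, hDle, hR, hZt, hZZ, hGZ, hDZ⟩ := s6a_ker_proj_int G (wy_3b_G_symm g Sf) Bz hBz1 hGb
  have hDq : (D : ℚ) ≠ 0 := by
    have : (1 : ℚ) ≤ (D : ℚ) := by exact_mod_cast hD1
    linarith
  have hDr1 : (1 : ℝ) ≤ (D : ℝ) := by exact_mod_cast hD1
  set Zq := wy_3b_Q Z with hZq
  have hZtq : Zqᵀ = Zq := by rw [hZq, ← wy_3b_Q_transpose, hZt]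
  have hZZq : Zq * Zq = (D : ℚ) • Zq := by
    rw [hZq, ← wy_3b_Q_mul, hZZ]
    ext i j
    simp only [wy_3b_Q, Matrix.map_apply, Matrix.smul_apply, smul_eq_mul, Int.cast_mul]
  have hDZq : (D : ℚ) • (1 : Matrix ι ι ℚ) - Zq = wy_3b_Q R * wy_3b_Q G := by
    rw [← wy_3b_Q_mul, ← hDZ]
    ext i j
    simp only [wy_3b_Q, hZq, Matrix.map_apply, Matrix.sub_apply, Matrix.smul_apply, smul_eq_mul, Matrix.one_apply]
    split_ifs <;> push_cast <;> ring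
  set Pf : Matrix ι ι ℚ := (1 / (D : ℚ)) • Zq with hPf
  have hidem : Pf * Pf = Pf := by
    rw [hPf, Matrix.smul_mul, Matrix.mul_smul, hZZq, smul_smul, smul_smul]
    congr 1
    field_simp
  have hsymm : Pfᵀ = Pf := by rw [hPf, Matrix.transpose_smul, hZtq]
  have h1Pf : 1 - Pf = (1 / (D : ℚ)) • (wy_3b_Q R * wy_3b_Q G) := by
    rw [← hDZq, smul_sub, smul_smul, hPf]
    congr 1
    rw [one_div, inv_mul_cancel₀ hDq, one_smul]
  have hidem' : (1 - Pf) * (1 - Pf) = 1 - Pf := by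
    rw [Matrix.sub_mul, Matrix.mul_sub, Matrix.mul_sub, hidem]
    simp
  have hsymm' : (1 - Pf)ᵀ = 1 - Pf := by rw [Matrix.transpose_sub, hsymm, Matrix.transpose_one]
  have hker : ∀ i ∈ S, ∀ b, ∑ l, g i l * Z l b = 0 := fun i hi b => wy_3b_ker g Sf Z hGZ i ((hmem i).mpr hi) b
  refine ⟨Bz, Pf, hBz1, hBzle, hidem, hsymm, ?_, ?_, ?_, ?_, ?_⟩
  · intro i j
    have h1 := s6a_qHeight_le_of_int (Pf i j) D (Z i j) hD1 (by
      simp only [hPf, hZq, wy_3b_Q, Matrix.smul_apply, Matrix.map_apply, smul_eq_mul]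
      field_simp) (s6a_idem_entry_le Pf hidem hsymm i j)
    have h2 : (qHeight (Pf i j) : ℤ) ≤ kerD (Fintype.card ι) Bz := h1.trans hDle
    exact_mod_cast h2
  · intro i j
    have h1 := s6a_qHeight_le_of_int ((1 - Pf) i j) D ((D • (1 : Matrix ι ι ℤ) - Z) i j) hD1 (by
      simp only [hPf, hZq, wy_3b_Q, Matrix.smul_apply, Matrix.map_apply, smul_eq_mul, Matrix.sub_apply]
      by_cases hij : i = j
      · subst hij
        simp only [Matrix.one_apply_eq]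
        push_cast
        field_simp
      · simp only [Matrix.one_apply_ne hij]
        push_cast
        field_simp) (s6a_idem_entry_le (1 - Pf) hidem' hsymm' i j)
    have h2 : (qHeight ((1 - Pf) i j) : ℤ) ≤ kerD (Fintype.card ι) Bz := h1.trans hDle
    exact_mod_cast h2
  · have := wy_3b_iso g h Z hfr.hg S (C - Cᵀ) hker hfr.iso
    rw [hPf, Matrix.transpose_smul, Matrix.smul_mul, Matrix.smul_mul, Matrix.mul_smul, this]
    simp
  · intro i a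
    have e : V - wy_R Pf * V = (1 / (D : ℝ)) • (R.map (fun z : ℤ => (z : ℝ)) * (G.map (fun z : ℤ => (z : ℝ)) * V)) := by
      have : V - wy_R Pf * V = wy_R (1 - Pf) * V := by
        rw [wy_R_sub, wy_R_one, Matrix.sub_mul, Matrix.one_mul]
      rw [this, h1Pf, wy_R_smul, wy_R_mul, wy_3b_RQ, wy_3b_RQ, Matrix.smul_mul, Matrix.mul_assoc]
      congr 1
      push_cast
      rfl
    have hGV : ∀ b a, |(G.map (fun z : ℤ => (z : ℝ)) * V) b a| ≤ d * (Y * Y) := by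
      intro b a
      rw [hG, wy_3b_G_mul]
      exact hsum _ _ (fun i hi => hfr.short i ((hmem i).mp hi) b) (fun i hi => hfr.shortV i ((hmem i).mp hi) a)
    have hRr : ∀ a b, |(R.map (fun z : ℤ => (z : ℝ))) a b| ≤ ((kerR (Fintype.card ι) Bz : ℤ) : ℝ) := by
      intro a b
      have := hR a b
      rw [Matrix.map_apply]
      exact_mod_cast this
    have hk0 : (0 : ℝ) ≤ ((kerR (Fintype.card ι) Bz : ℤ) : ℝ) := (abs_nonneg _).trans (hRr i i)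
    have h3 := wy_mul_le _ _ _ _ hk0 hRr hGV i a
    rw [e, Matrix.smul_apply, smul_eq_mul, abs_mul, abs_of_pos (by positivity : (0 : ℝ) < 1 / (D : ℝ))]
    have h4 : 1 / (D : ℝ) ≤ 1 := by
      rw [div_le_one (by linarith)]
      exact hDr1
    calc 1 / (D : ℝ) * _ ≤ 1 * _ := mul_le_mul_of_nonneg_right h4 (abs_nonneg _)
      _ ≤ _ := by rw [one_mul]; exact h3
  · intro n hn
    have hGn : G *ᵥ n = 0 := by
      funext a
      simp only [Matrix.mulVec, dotProduct, hG, wy_3b_G, Matrix.of_apply, Pi.zero_apply, Finset.sum_mul]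
      rw [Finset.sum_comm]
      apply Finset.sum_eq_zero
      intro i hi
      have := hn i ((hmem i).mp hi)
      calc ∑ c, g i a * g i c * n c = g i a * ∑ c, g i c * n c := by
            rw [Finset.mul_sum]
            apply Finset.sum_congr rfl
            intro c _
            ring
        _ = 0 := by rw [this, mul_zero]
    have hZn : Z *ᵥ n = D • n := by
      have h1 : (D • (1 : Matrix ι ι ℤ) - Z) *ᵥ n = 0 := by
        rw [hDZ, ← Matrix.mulVec_mulVec, hGn, Matrix.mulVec_zero]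
      rw [Matrix.sub_mulVec, Matrix.smul_mulVec, Matrix.one_mulVec, sub_eq_zero] at h1
      exact h1.symm
    funext a
    have h2 : ∑ c, Z a c * n c = D * n a := by
      have := congrFun hZn a
      simpa [Matrix.mulVec, dotProduct] using this
    have h3 : ∑ c, (Z a c : ℝ) * (n c : ℝ) = (D : ℝ) * (n a : ℝ) := by exact_mod_cast h2
    simp only [Matrix.mulVec, dotProduct, wy_R, wy_Z, hPf, hZq, wy_3b_Q, Matrix.map_apply, Matrix.smul_apply, smul_eq_mul]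
    push_cast
    calc ∑ c, 1 / (D : ℝ) * (Z a c : ℝ) * (n c : ℝ) = 1 / (D : ℝ) * ∑ c, (Z a c : ℝ) * (n c : ℝ) := by
          rw [Finset.mul_sum]
          apply Finset.sum_congr rfl
          intro c _
          ring
      _ = (n a : ℝ) := by
          rw [h3]
          field_simp

theorem wy_W3b : ∃ c : ℕ, ∀ {ι κ : Type*} [Fintype ι] [DecidableEq ι] [Fintype κ] (Y : ℝ) (P : ℕ) (C : Matrix ι ι ℚ)
    (V : Matrix ι κ ℝ) (g h : Matrix ι ι ℤ) (S : Set ι) (β : ℝ),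
    1 ≤ Y → (Fintype.card ι : ℝ) ≤ 1 + Real.log Y → wy_Frame Y P C V g h S β →
    ∃ Pf : Matrix ι ι ℚ, Pf * Pf = Pf ∧ Pfᵀ = Pf ∧ (∀ i j, (qHeight (Pf i j) : ℝ) ≤ wy_qp c Y) ∧
      (∀ i j, (qHeight ((1 - Pf) i j) : ℝ) ≤ wy_qp c Y) ∧ Pfᵀ * (C - Cᵀ) * Pf = 0 ∧
      (∀ i a, |(V - wy_R Pf * V) i a| ≤ wy_qp c Y) ∧
      ∀ n : ι → ℤ, (∀ i ∈ S, ∑ l, g i l * n l = 0) → wy_R Pf *ᵥ wy_Z n = wy_Z n := by
  refine ⟨30, ?_⟩
  intro ι κ _ _ _ Y P C V g h S β hY hd hfr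
  obtain ⟨Bz, Pf, hB1, hB2, p1, p2, p3, p4, p5, p6, p7⟩ := wy_3b_core Y P C V g h S β hY hfr
  obtain ⟨b1, b2⟩ := wy_3b_budget Y _ hY hd Bz hB1 hB2
  exact ⟨Pf, p1, p2, fun i j => (p3 i j).trans b1, fun i j => (p4 i j).trans b1, p5, fun i a => (p6 i a).trans b2, p7⟩

end Claimed.Agent.R258
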