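/-
Row 258, [Weyl].  Leaf P-WY-W3C: returns in the coordinate directions bound the effective quadratic matrix (charts.tex l.302-336).
PROVED (helper197).
Uses `geo4_dirichlet`, `wy_alg` as black boxes.

PLAN.  Fix the column `j`.  `b0 = 1/X` (`≤ a, β, 1`), `N = ⌈P X⌉₊` (`≥ 1`, `P/N ≤ b0`, `N ≤ X² + 1`), `d = card ι`, `σ = b0 / N^d`.
`geo4_dirichlet (α l = σ V l j / P) N` gives `1 ≤ q ≤ N^d`, `n` with `|q α_l - n_l| ≤ 1/N`.   `t = q σ ∈ [b0/N^d, b0]`, `h = t e_j = Pi.single j t`,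
`m = P n`:  `(V h)_l - m_l = P (q α_l - n_l)`, `|.| ≤ P/N ≤ b0`.   So `(h, m)` is a return of size `b0 ≤ a`: `|Ω(h,m)| ≤ B ≤ X`; and it is of size `≤ β`:
`Pf n = n`, hence `Pf m = m`.   `wy_alg`:  `2 t Λ_*(a', j) = Ω_{a'} - (V_sᵀ C_sk V_s h)_{a'} - (V_sᵀ A P_f (V h - m))_{a'}`, where
`|(V_sᵀ C_sk V_s h)_{a'}| ≤ d² X³`, `|(P_f (Vh - m))_l| ≤ d X`, `|(V_sᵀ A x)_{a'}| ≤ d² X (2X) |x|_∞` (`|C i l| ≤ qHeight ≤ X`, `wy_abs_le_qHeight`).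
Hence `|Λ_*(a',j)| ≤ (X + d² X³ + 2 d³ X³) N^d X / 2 ≤ qp c X` (`wy_pow_le_qp` for `N^d`).
-/
import Claimed.Agent.R258.Pack004
import Claimed.Agent.R258.Weyl.Iso
import Claimed.Agent.R258.Pack009

set_option autoImplicit false
open Matrix

namespace Claimed.Agent.R258

/-- a return in the coordinate direction `j` -/
theorem wy_3c_return {ι : Type*} [Fintype ι] (v : ι → ℝ) (X Pr : ℝ) (hX : 1 ≤ X) (hP : 1 ≤ Pr) :
    ∃ (t : ℝ) (n : ι → ℤ), 1 / (X * (⌈Pr * X⌉₊ : ℝ) ^ Fintype.card ι) ≤ t ∧ t ≤ 1 / X ∧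
      ∀ l, |v l * t - Pr * (n l : ℝ)| ≤ 1 / X := by
  have hX0 : 0 < X := by linarith
  have hP0 : 0 < Pr := by linarith
  set N : ℕ := ⌈Pr * X⌉₊ with hN
  have hNpos : 0 < N := Nat.ceil_pos.mpr (by positivity)
  have hNr : (0 : ℝ) < N := by exact_mod_cast hNpos
  have hNle : Pr * X ≤ N := Nat.le_ceil _
  set d := Fintype.card ι with hd
  set σ : ℝ := 1 / (X * (N : ℝ) ^ d) with hσ
  have hσ0 : 0 < σ := by positivity
  obtain ⟨q, hq0, hqN, n, hn⟩ := geo4_dirichlet (fun l => σ * v l / Pr) N hNpos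
  have hq1 : (1 : ℝ) ≤ q := by exact_mod_cast hq0
  have hqN' : (q : ℝ) ≤ (N : ℝ) ^ d := by exact_mod_cast hqN
  refine ⟨q * σ, n, ?_, ?_, fun l => ?_⟩
  · exact le_mul_of_one_le_left hσ0.le hq1
  · calc (q : ℝ) * σ ≤ (N : ℝ) ^ d * σ := mul_le_mul_of_nonneg_right hqN' hσ0.le
      _ = 1 / X := by rw [hσ]; field_simp
  · have e : v l * (q * σ) - Pr * (n l : ℝ) = Pr * ((q : ℝ) * (σ * v l / Pr) - (n l : ℝ)) := by
      field_simp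
    rw [e, abs_mul, abs_of_pos hP0]
    calc Pr * |(q : ℝ) * (σ * v l / Pr) - (n l : ℝ)| ≤ Pr * (1 / (N : ℝ)) := mul_le_mul_of_nonneg_left (hn l) hP0.le
      _ ≤ 1 / X := by
          rw [mul_one_div, div_le_div_iff₀ hNr hX0]
          linarith

theorem wy_3c_budget (X Pr : ℝ) (d k : ℕ) (hX : 1 ≤ X) (hd : (d : ℝ) ≤ 1 + Real.log X) (hk : (k : ℝ) ≤ 1 + Real.log X)
    (hP1 : 1 ≤ Pr) (hPX : Pr ≤ X) :
    (X + (k : ℝ) * ((d : ℝ) * ((d : ℝ) * (X * X) * X) * 1) + (d : ℝ) * ((d : ℝ) * (X * (2 * X)) * ((d : ℝ) * (X * 1))))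
      * (X * (⌈Pr * X⌉₊ : ℝ) ^ d) ≤ wy_qp 40 X := by
  have hX0 : 0 ≤ X := by linarith
  have hd0 : (0 : ℝ) ≤ d := by positivity
  have hk0 : (0 : ℝ) ≤ k := by positivity
  have q1 : (1 : ℝ) ≤ wy_qp 0 X := wy_one_le_qp 0 hX
  have qd : (d : ℝ) ≤ wy_qp 1 X := wy_dim_le_qp hX hd
  have qk : (k : ℝ) ≤ wy_qp 1 X := wy_dim_le_qp hX hk
  have qX : X ≤ wy_qp 1 X := wy_le_qp le_rfl hX
  have q2 : (2 : ℝ) ≤ wy_qp 2 X := by exact_mod_cast wy_cast_le_qp 2 hX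
  have qXX : X * X ≤ wy_qp 2 X := wy_mul_le_qp (c := 1) (c' := 1) hX hX0 qX qX
  have qN : (⌈Pr * X⌉₊ : ℝ) ≤ wy_qp 4 X := by
    have h1 : (⌈Pr * X⌉₊ : ℝ) ≤ Pr * X + 1 := (Nat.ceil_lt_add_one (by positivity)).le
    have h2 : Pr * X ≤ wy_qp 2 X := wy_mul_le_qp (c := 1) (c' := 1) hX (by linarith) (hPX.trans qX) qX
    exact h1.trans (wy_add_le_qp (c := 2) (c' := 0) hX h2 q1)
  have qNd : (⌈Pr * X⌉₊ : ℝ) ^ d ≤ wy_qp 5 X := wy_pow_le_qp hX (by positivity) qN hd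
  have qXN : X * (⌈Pr * X⌉₊ : ℝ) ^ d ≤ wy_qp 6 X := wy_mul_le_qp (c := 1) (c' := 5) hX hX0 qX qNd
  have a1 : (d : ℝ) * (X * X) ≤ wy_qp 3 X := wy_mul_le_qp (c := 1) (c' := 2) hX hd0 qd qXX
  have a2 : (d : ℝ) * (X * X) * X ≤ wy_qp 4 X := wy_mul_le_qp (c := 3) (c' := 1) hX (by positivity) a1 qX
  have a3 : (d : ℝ) * ((d : ℝ) * (X * X) * X) ≤ wy_qp 5 X := wy_mul_le_qp (c := 1) (c' := 4) hX hd0 qd a2
  have a4 : (k : ℝ) * ((d : ℝ) * ((d : ℝ) * (X * X) * X) * 1) ≤ wy_qp 6 X := by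
    rw [mul_one]
    exact wy_mul_le_qp (c := 1) (c' := 5) hX hk0 qk a3
  have b1 : X * (2 * X) ≤ wy_qp 4 X :=
    wy_mul_le_qp (c := 1) (c' := 3) hX hX0 qX (wy_mul_le_qp (c := 2) (c' := 1) hX (by norm_num) q2 qX)
  have b2 : (d : ℝ) * (X * (2 * X)) ≤ wy_qp 5 X := wy_mul_le_qp (c := 1) (c' := 4) hX hd0 qd b1
  have b3 : (d : ℝ) * (X * 1) ≤ wy_qp 2 X := by
    rw [mul_one]
    exact wy_mul_le_qp (c := 1) (c' := 1) hX hd0 qd qX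
  have b4 : (d : ℝ) * (X * (2 * X)) * ((d : ℝ) * (X * 1)) ≤ wy_qp 7 X := wy_mul_le_qp (c := 5) (c' := 2) hX (by positivity) b2 b3
  have b5 : (d : ℝ) * ((d : ℝ) * (X * (2 * X)) * ((d : ℝ) * (X * 1))) ≤ wy_qp 8 X :=
    wy_mul_le_qp (c := 1) (c' := 7) hX hd0 qd b4
  have e1 := wy_add_le_qp (c := 1) (c' := 6) hX qX a4
  have e2 := wy_add_le_qp (c := 1 + 6 + 2) (c' := 8) hX e1 b5
  have e3 := wy_mul_le_qp (c := 1 + 6 + 2 + 8 + 2) (c' := 6) hX (by positivity) e2 qXN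
  exact e3.trans (wy_qp_mono (by norm_num) hX)

theorem wy_W3c : ∃ c : ℕ, ∀ {ι κ : Type*} [Fintype ι] [DecidableEq ι] [Fintype κ] [DecidableEq κ] (X : ℝ) (P : ℕ)
    (C : Matrix ι ι ℚ) (V : Matrix ι κ ℝ) (Lam : Matrix κ κ ℝ) (a B β : ℝ) (Pf : Matrix ι ι ℚ),
    wy_Std X C κ → 0 < P → (P : ℝ) ≤ X → 1 / X ≤ a → B ≤ X → wy_RetBound P C V Lam a B →
    (∀ i j, |((Pf i j : ℚ) : ℝ)| ≤ X) → Pfᵀ * (C - Cᵀ) * Pf = 0 → (∀ i a', |(V - wy_R Pf * V) i a'| ≤ X) → 1 / X ≤ β →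
    (∀ (t : κ → ℝ) (n : ι → ℤ), (∀ a', |t a'| ≤ β) → (∀ l, |(V *ᵥ t) l - (P : ℝ) * (n l : ℝ)| ≤ β) →
      wy_R Pf *ᵥ wy_Z n = wy_Z n) →
    ∀ a' b', |wy_LamStar C V Lam Pf a' b'| ≤ wy_qp c X := by
  refine ⟨40, ?_⟩
  intro ι κ _ _ _ _ X P C V Lam a B β Pf hstd hP hPX haX hBX hret hPf hiso hslow hβ hfix a' j
  have hX := hstd.one_le
  have hX0 : 0 < X := by linarith
  have hP1 : (1 : ℝ) ≤ (P : ℝ) := by exact_mod_cast hP
  obtain ⟨t, n, ht1, ht2, hn⟩ := wy_3c_return (fun l => V l j) X (P : ℝ) hX hP1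
  have hb1 : 1 / X ≤ 1 := by rw [div_le_one hX0]; exact hX
  have hden : 0 < X * (⌈(P : ℝ) * X⌉₊ : ℝ) ^ Fintype.card ι := by
    have : 0 < ⌈(P : ℝ) * X⌉₊ := Nat.ceil_pos.mpr (by positivity)
    have : (0 : ℝ) < (⌈(P : ℝ) * X⌉₊ : ℝ) := by exact_mod_cast this
    positivity
  have ht0 : 0 < t := lt_of_lt_of_le (by positivity) ht1
  set h : κ → ℝ := Pi.single j t with hh
  set m : ι → ℤ := fun l => (P : ℤ) * n l with hm
  have hhb : ∀ b, |h b| ≤ 1 / X := by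
    intro b
    by_cases hb : b = j
    · subst hb; simp only [hh, Pi.single_eq_same]; rw [abs_of_pos ht0]; exact ht2
    · simp only [hh, Pi.single_eq_of_ne hb, abs_zero]; positivity
  have hVh : ∀ l, (V *ᵥ h) l = V l j * t := by
    intro l
    simp [hh, Matrix.mulVec, dotProduct, Pi.single_apply]
  have hdl : ∀ l, |(V *ᵥ h) l - (P : ℝ) * (n l : ℝ)| ≤ 1 / X := fun l => by rw [hVh]; exact hn l
  have hZm : wy_Z m = (P : ℝ) • wy_Z n := by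
    funext l; simp [wy_Z, hm]
  have hret' : wy_IsRet P V a h m := by
    refine ⟨fun i => Dvd.intro _ rfl, fun b => (hhb b).trans haX, fun l => ?_⟩
    have : ((m l : ℤ) : ℝ) = (P : ℝ) * (n l : ℝ) := by simp [hm]
    rw [this]
    exact (hdl l).trans haX
  have hΩ := hret h m hret' a'
  have hfn := hfix h n (fun b => (hhb b).trans hβ) (fun l => (hdl l).trans hβ)
  have hfm : wy_R Pf *ᵥ wy_Z m = wy_Z m := by rw [hZm, Matrix.mulVec_smul, hfn]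
  have key := congrFun (wy_alg C V Lam Pf hiso h m hfm) a'
  have hL : ((2 : ℝ) • (wy_LamStar C V Lam Pf *ᵥ h)) a' = 2 * (wy_LamStar C V Lam Pf a' j * t) := by
    simp [hh, mul_comm]
  rw [hL] at key
  simp only [Pi.sub_apply] at key
  -- estimates
  have hC : ∀ i l, |((C i l : ℚ) : ℝ)| ≤ X := fun i l => (wy_abs_le_qHeight _).trans (hstd.height i l)
  have hA : ∀ i l, |(wy_R C - (wy_R C)ᵀ) i l| ≤ 2 * X := by
    intro i l
    rw [Matrix.sub_apply, Matrix.transpose_apply, wy_R_apply, wy_R_apply]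
    have := abs_sub (((C i l : ℚ) : ℝ)) (((C l i : ℚ) : ℝ))
    linarith [hC i l, hC l i]
  have hCsk : ∀ i l, |((1 / 2 : ℝ) • (wy_R C - (wy_R C)ᵀ)) i l| ≤ X := by
    intro i l
    rw [Matrix.smul_apply, smul_eq_mul, abs_mul, abs_of_pos (by norm_num : (0 : ℝ) < 1 / 2)]
    linarith [hA i l]
  have hVsT : ∀ b i, |(V - wy_R Pf * V)ᵀ b i| ≤ X := fun b i => hslow i b
  set d : ℝ := (Fintype.card ι : ℝ) with hd
  set k : ℝ := (Fintype.card κ : ℝ) with hk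
  have e1 : ∀ b l, |((V - wy_R Pf * V)ᵀ * ((1 / 2 : ℝ) • (wy_R C - (wy_R C)ᵀ))) b l| ≤ d * (X * X) :=
    wy_mul_le _ _ X X hX0.le hVsT hCsk
  have hd0 : 0 ≤ d := by positivity
  have e2 : ∀ b b', |((V - wy_R Pf * V)ᵀ * ((1 / 2 : ℝ) • (wy_R C - (wy_R C)ᵀ)) * (V - wy_R Pf * V)) b b'|
      ≤ d * (d * (X * X) * X) := wy_mul_le _ _ _ X (by positivity) e1 hslow
  have e3 := wy_mulVec_le _ h _ 1 (by positivity) e2 (fun b => (hhb b).trans hb1) a'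
  have f1 : ∀ b l, |((V - wy_R Pf * V)ᵀ * (wy_R C - (wy_R C)ᵀ)) b l| ≤ d * (X * (2 * X)) :=
    wy_mul_le _ _ X (2 * X) hX0.le hVsT hA
  have f2 : ∀ l, |(V *ᵥ h - wy_Z m) l| ≤ 1 := by
    intro l
    have : (V *ᵥ h - wy_Z m) l = (V *ᵥ h) l - (P : ℝ) * (n l : ℝ) := by simp [wy_Z, hm]
    rw [this]
    exact (hdl l).trans hb1
  have f3 : ∀ l, |(wy_R Pf *ᵥ (V *ᵥ h - wy_Z m)) l| ≤ d * (X * 1) :=
    wy_mulVec_le _ _ X 1 hX0.le hPf f2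
  have f4 := wy_mulVec_le _ _ _ _ (by positivity) f1 f3 a'
  set E : ℝ := X + k * (d * (d * (X * X) * X) * 1) + d * (d * (X * (2 * X)) * (d * (X * 1))) with hE
  have hbound : 2 * (|wy_LamStar C V Lam Pf a' j| * t) ≤ E := by
    have : |2 * (wy_LamStar C V Lam Pf a' j * t)| ≤ E := by
      rw [key]
      refine (abs_sub _ _).trans ?_
      refine (add_le_add (abs_sub _ _) le_rfl).trans ?_
      rw [hE]
      linarith
    rwa [abs_mul, abs_mul, abs_of_pos ht0, abs_of_pos (by norm_num : (0 : ℝ) < 2)] at this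
  have hE0 : 0 ≤ E := by rw [hE]; positivity
  have hfin : |wy_LamStar C V Lam Pf a' j| ≤ E * (X * (⌈(P : ℝ) * X⌉₊ : ℝ) ^ Fintype.card ι) := by
    have h1 : |wy_LamStar C V Lam Pf a' j| * (1 / (X * (⌈(P : ℝ) * X⌉₊ : ℝ) ^ Fintype.card ι)) ≤ E := by
      have := mul_le_mul_of_nonneg_left ht1 (abs_nonneg (wy_LamStar C V Lam Pf a' j))
      have h3 : 0 ≤ |wy_LamStar C V Lam Pf a' j| * t := by positivity
      linarith
    rwa [mul_one_div, div_le_iff₀ hden] at h1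
  exact hfin.trans (wy_3c_budget X P _ _ hX hstd.dim hstd.dim' hP1 hPX)

end Claimed.Agent.R258
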