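/-
Row 258, [Weyl].  Leaf P-WY-ADAPT1: Lemma 4.3 in the form consumed by block [S4a] (helper78): `s4a_Weyl1` of S4a/Defs.lean (`k = 1`, `ϑ = ζ`).
PROVED (helper197) from `wy_weyl` with `κ = Unit`, `V = wy_a1_col Q.th`, `Lam = of fun _ _ => Q.lam`, `b = fun _ => Q.bet`, `χ = Q.chi`,
`ϑ z = ζ (z ())`, `X = H^20 * 2^20 * Lζ / δ`.
-/
import Claimed.Agent.R258.Pack012

set_option autoImplicit false
set_option linter.unusedSectionVars false
open MeasureTheory Matrix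
open scoped ContDiff

namespace Claimed.Agent.R258

/-! ### the cutoff -/

theorem wy_a1_zeta_range (u : ℝ) : 0 ≤ s4a_zeta u ∧ s4a_zeta u ≤ 1 := by
  have h1 := Real.smoothTransition.nonneg (2 - u)
  have h2 := Real.smoothTransition.nonneg (2 + u)
  have h3 := Real.smoothTransition.le_one (2 - u)
  have h4 := Real.smoothTransition.le_one (2 + u)
  unfold s4a_zeta
  exact ⟨mul_nonneg h1 h2, by nlinarith⟩

theorem wy_a1_zeta_supp (u : ℝ) (hu : 2 ≤ |u|) : s4a_zeta u = 0 := by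
  unfold s4a_zeta
  rcases le_abs.1 hu with h | h
  · rw [Real.smoothTransition.zero_of_nonpos (by linarith), zero_mul]
  · rw [Real.smoothTransition.zero_of_nonpos (x := 2 + u) (by linarith), mul_zero]

theorem wy_a1_zeta_contDiff : ContDiff ℝ ∞ s4a_zeta := by
  unfold s4a_zeta
  exact (Real.smoothTransition.contDiff.comp (contDiff_const.sub contDiff_id)).mul
    (Real.smoothTransition.contDiff.comp (contDiff_const.add contDiff_id))

theorem wy_a1_zeta_lipschitz : ∃ L : ℝ, 1 ≤ L ∧ ∀ u v : ℝ, |s4a_zeta u - s4a_zeta v| ≤ L * |u - v| := by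
  have hcs : HasCompactSupport s4a_zeta := by
    refine HasCompactSupport.intro (K := Set.Icc (-2) 2) isCompact_Icc ?_
    intro x hx
    apply wy_a1_zeta_supp
    by_contra h
    push Not at h
    exact hx ⟨(abs_lt.1 h).1.le, (abs_lt.1 h).2.le⟩
  obtain ⟨C, hC⟩ := ContDiff.lipschitzWith_of_hasCompactSupport hcs wy_a1_zeta_contDiff (by simp)
  refine ⟨max 1 C, le_max_left _ _, fun u v => ?_⟩
  have h := hC.dist_le_mul u v
  rw [Real.dist_eq, Real.dist_eq] at h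
  refine le_trans h ?_
  gcongr
  exact le_max_right _ _

/-- `ϑ z = ζ (z ())` is an amplitude -/
theorem wy_a1_amp_zeta {L X : ℝ} (hL : ∀ u v : ℝ, |s4a_zeta u - s4a_zeta v| ≤ L * |u - v|) (h0 : 0 ≤ L) (hLX : L ≤ X) (h2 : 2 ≤ X) :
    wy_Amp X (fun z : Unit → ℝ => ((s4a_zeta (z ()) : ℝ) : ℂ)) := by
  refine ⟨fun x hx i => ?_, fun x => ?_, fun x y => ?_⟩
  · cases i
    by_contra h
    push Not at h
    exact hx (by rw [wy_a1_zeta_supp _ (by linarith)]; simp)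
  · rw [Complex.norm_real, Real.norm_eq_abs, abs_of_nonneg (wy_a1_zeta_range _).1]
    linarith [(wy_a1_zeta_range (x ())).2]
  · rw [← Complex.ofReal_sub, Complex.norm_real, Real.norm_eq_abs]
    refine (hL _ _).trans ?_
    have h1 : |x () - y ()| ≤ ‖x - y‖ := by
      have := norm_le_pi_norm (x - y) ()
      simpa using this
    calc L * |x () - y ()| ≤ L * ‖x - y‖ := by gcongr
      _ ≤ X * ‖x - y‖ := by gcongr

/-! ### one-column matrices -/

section
variable {ι : Type} [Fintype ι]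

/-- a vector as a one-column matrix -/
def wy_a1_col (x : ι → ℝ) : Matrix ι Unit ℝ := Matrix.of fun i _ => x i

theorem wy_a1_col_bil (M : Matrix ι ι ℝ) (x y : ι → ℝ) : ((wy_a1_col x)ᵀ * M * wy_a1_col y) () () = x ⬝ᵥ (M *ᵥ y) := by
  rw [Matrix.dotProduct_mulVec]
  simp only [Matrix.mul_apply, wy_a1_col, Matrix.transpose_apply, Matrix.of_apply, dotProduct, Matrix.vecMul]

theorem wy_a1_col_mul (M : Matrix ι ι ℝ) (x : ι → ℝ) : M * wy_a1_col x = wy_a1_col (M *ᵥ x) := by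
  ext i u
  simp only [Matrix.mul_apply, wy_a1_col, Matrix.of_apply, Matrix.mulVec, dotProduct]

theorem wy_a1_col_sub (x y : ι → ℝ) : wy_a1_col x - wy_a1_col y = wy_a1_col (x - y) := by
  ext i u
  simp only [wy_a1_col, Matrix.sub_apply, Matrix.of_apply, Pi.sub_apply]

theorem wy_a1_col_mulVec (x : ι → ℝ) (y : ℝ) : wy_a1_col x *ᵥ (fun _ : Unit => y) = fun i => x i * y := by
  funext i
  simp only [Matrix.mulVec, dotProduct, wy_a1_col, Matrix.of_apply, Finset.univ_unique, Finset.sum_singleton]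

theorem wy_a1_bil (C : Matrix ι ι ℚ) (u w : ι → ℝ) : s4a_bil C u w = u ⬝ᵥ (wy_R C *ᵥ w) := by
  simp only [s4a_bil, dotProduct, Matrix.mulVec, wy_R, Matrix.map_apply, Finset.mul_sum, mul_assoc]

theorem wy_a1_bil_T (C : Matrix ι ι ℚ) (u w : ι → ℝ) : u ⬝ᵥ ((wy_R C)ᵀ *ᵥ w) = s4a_bil C w u := by
  rw [wy_a1_bil, Matrix.mulVec_transpose, dotProduct_comm, Matrix.dotProduct_mulVec]

theorem wy_a1_mv (P : Matrix ι ι ℚ) (u : ι → ℝ) : s4a_mv P u = wy_R P *ᵥ u := by
  funext i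
  simp only [s4a_mv, dotProduct, Matrix.mulVec, wy_R, Matrix.map_apply]

theorem wy_a1_mv_compl [DecidableEq ι] (P : Matrix ι ι ℚ) (u : ι → ℝ) : s4a_mv (1 - P) u = u - wy_R P *ᵥ u := by
  rw [wy_a1_mv, wy_R_sub, wy_R_one, Matrix.sub_mulVec, Matrix.one_mulVec]

theorem wy_a1_LamStar [DecidableEq ι] (C Pf : Matrix ι ι ℚ) (V : ι → ℝ) (lam : ℝ) :
    wy_LamStar C (wy_a1_col V) (Matrix.of fun _ _ => lam) Pf () () = lam + s4a_quad C Pf V := by
  unfold wy_LamStar s4a_quad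
  rw [wy_a1_col_mul, wy_a1_col_sub, wy_a1_mv_compl, wy_a1_mv]
  simp only [Matrix.add_apply, Matrix.smul_apply, Matrix.of_apply, Matrix.transpose_apply, smul_eq_mul]
  rw [wy_a1_col_bil, wy_a1_col_bil]
  simp only [Matrix.smul_mulVec, Matrix.add_mulVec, Matrix.sub_mulVec, dotProduct_smul, dotProduct_add, dotProduct_sub,
    smul_eq_mul, wy_a1_bil_T, ← wy_a1_bil]
  ring

end

/-! ### the chart function -/

theorem wy_a1_eval (Q : Chart) (y : ℝ) :
    Q.eval y = Q.unit * wy_Q Q.C (wy_a1_col Q.th) (Matrix.of fun _ _ => Q.lam) (fun _ => Q.bet) Q.chi (fun _ => y) := by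
  unfold Chart.eval wy_Q
  rw [wy_a1_col_mulVec, mul_assoc]
  congr 2
  · congr 1
    simp only [Matrix.mulVec, dotProduct, Matrix.of_apply, Finset.univ_unique, Finset.sum_singleton]
    ring
  · refine tsum_congr fun n => ?_
    have e : ((fun i => Q.th i * y) - wy_Z n) = fun i => Q.th i * y - (n i : ℝ) := rfl
    rw [e, ← wy_a1_bil]
    rfl

theorem wy_a1_integral (f : (Unit → ℝ) → ℂ) : ∫ z, f z = ∫ u : ℝ, f (fun _ => u) := by
  have h := (MeasureTheory.volume_preserving_funUnique Unit ℝ).integral_comp' (fun u : ℝ => f (fun _ => u))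
  rw [← h]
  refine integral_congr_ae (Filter.Eventually.of_forall fun z => ?_)
  show f z = f (fun _ => z default)
  congr 1

theorem wy_a1_AInt (Q : Chart) (hu : ‖Q.unit‖ = 1) (ξ : ℝ) :
    ‖s4a_AInt Q.eval 1 ξ‖ = ‖∫ z : Unit → ℝ, ((s4a_zeta (z ()) : ℝ) : ℂ) *
      wy_Q Q.C (wy_a1_col Q.th) (Matrix.of fun _ _ => Q.lam) (fun _ => Q.bet) Q.chi z * ee (-((fun _ => ξ) ⬝ᵥ z))‖ := by
  rw [wy_a1_integral, s4a_AInt]
  have e : ∀ u : ℝ, Q.eval (1 * u) * (s4a_zeta u : ℂ) * ee (-(ξ * u)) = Q.unit * (((s4a_zeta u : ℝ) : ℂ) *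
      wy_Q Q.C (wy_a1_col Q.th) (Matrix.of fun _ _ => Q.lam) (fun _ => Q.bet) Q.chi (fun _ => u) *
        ee (-((fun _ : Unit => ξ) ⬝ᵥ (fun _ : Unit => u)))) := by
    intro u
    rw [one_mul, wy_a1_eval]
    simp only [dotProduct, Finset.univ_unique, Finset.sum_singleton]
    ring
  simp_rw [e]
  rw [integral_const_mul, norm_mul, hu, one_mul]

/-! ### the amplitude of a chart -/

theorem wy_a1_amp_chi (Q : Chart) {H X : ℝ} (hQ : Q.Cplx H) (hX : H ^ 20 * 2 ^ 20 ≤ X) : wy_Amp X Q.chi := by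
  have hH1 : 1 ≤ H := le_trans (by simp) hQ.H_ge
  have hH0 : 0 ≤ H := by linarith
  have h20 : H ^ 20 ≤ X := by
    have : (0:ℝ) ≤ H ^ 20 := by positivity
    nlinarith
  have hHX : H ≤ X := le_trans (le_self_pow₀ hH1 (by norm_num)) h20
  refine ⟨fun x hx i => (hQ.supp x hx i).trans hHX, fun x => ?_, fun x y => ?_⟩
  · have := hQ.deriv 0 x
    rw [norm_iteratedFDeriv_zero] at this
    refine this.trans ?_
    have e : H ^ (cGev * (((0 : ℕ) : ℝ) + 1)) * (((0 : ℕ) : ℝ) + 1) ^ (cGev * (((0 : ℕ) : ℝ) + 1)) = H ^ 10 := by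
      have : cGev * (((0 : ℕ) : ℝ) + 1) = ((10 : ℕ) : ℝ) := by unfold cGev; norm_num
      rw [this, Real.rpow_natCast, Real.rpow_natCast]
      norm_num
    rw [e]
    exact le_trans (pow_le_pow_right₀ hH1 (by norm_num)) h20
  · have hd : Differentiable ℝ Q.chi := hQ.smooth.differentiable (by simp)
    have hb : ∀ z ∈ (Set.univ : Set (Fin Q.d → ℝ)), ‖fderiv ℝ Q.chi z‖ ≤ X := by
      intro z _
      have := hQ.deriv 1 z
      rw [norm_iteratedFDeriv_one] at this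
      refine this.trans ?_
      have e : H ^ (cGev * (((1 : ℕ) : ℝ) + 1)) * (((1 : ℕ) : ℝ) + 1) ^ (cGev * (((1 : ℕ) : ℝ) + 1)) = H ^ 20 * 2 ^ 20 := by
        have : cGev * (((1 : ℕ) : ℝ) + 1) = ((20 : ℕ) : ℝ) := by unfold cGev; norm_num
        rw [this, Real.rpow_natCast, Real.rpow_natCast]
        norm_num
      rw [e]
      exact hX
    exact Convex.norm_image_sub_le_of_norm_fderiv_le (fun z _ => hd z) hb convex_univ (Set.mem_univ y) (Set.mem_univ x)

/-! ### budgets -/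

theorem wy_a1_qp (c K : ℕ) {X x : ℝ} (hx : 0 ≤ x) (h0 : 0 ≤ 1 + Real.log X) (h : 1 + Real.log X ≤ K * (1 + x)) :
    wy_qp c X ≤ s4b_qp (c * K ^ c + c) x := by
  unfold wy_qp s4b_qp
  apply Real.exp_le_exp.2
  have h1 : (1 + Real.log X) ^ c ≤ (K : ℝ) ^ c * (1 + x) ^ c := by
    rw [← mul_pow]
    exact pow_le_pow_left₀ h0 h c
  have h2 : (1 + x) ^ c ≤ (1 + x) ^ (c * K ^ c + c) := pow_le_pow_right₀ (by linarith) (by omega)
  have h3 : (0:ℝ) ≤ (1 + x) ^ c := by positivity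
  calc (c : ℝ) * (1 + Real.log X) ^ c ≤ (c : ℝ) * ((K : ℝ) ^ c * (1 + x) ^ c) := by gcongr
    _ = ((c : ℝ) * (K : ℝ) ^ c) * (1 + x) ^ c := by ring
    _ ≤ ((c : ℝ) * (K : ℝ) ^ c + c) * (1 + x) ^ c := by
        apply mul_le_mul_of_nonneg_right _ h3
        have : (0:ℝ) ≤ c := Nat.cast_nonneg c
        linarith
    _ ≤ ((c : ℝ) * (K : ℝ) ^ c + c) * (1 + x) ^ (c * K ^ c + c) := by gcongr
    _ = ((c * K ^ c + c : ℕ) : ℝ) * (1 + x) ^ (c * K ^ c + c) := by push_cast; ring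

theorem wy_Weyl1 : s4a_Weyl1 := by
  obtain ⟨c, hc⟩ := wy_weyl
  obtain ⟨L, hL1, hL⟩ := wy_a1_zeta_lipschitz
  set K : ℕ := ⌈21 + Real.log L⌉₊ with hK
  refine ⟨c * K ^ c + c, ?_⟩
  intro Q H δ hQ hδ hδ2 ⟨ξ, hξ⟩
  have hH1 : 1 ≤ H := le_trans (by simp) hQ.H_ge
  have hH0 : 0 < H := by linarith
  have hd1 : 1 ≤ 1 / δ := by rw [le_div_iff₀ hδ]; linarith
  set A : ℝ := H ^ 20 * 2 ^ 20 with hA
  have hA1 : 1 ≤ A := by
    have : (1:ℝ) ≤ H ^ 20 := one_le_pow₀ hH1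
    rw [hA]; nlinarith
  have hA2 : 2 ≤ A := by
    have : (1:ℝ) ≤ H ^ 20 := one_le_pow₀ hH1
    rw [hA]; nlinarith
  set X : ℝ := A * L * (1 / δ) with hX
  have hAL : A ≤ A * L := le_mul_of_one_le_right (by linarith) hL1
  have hLA : L ≤ A * L := le_mul_of_one_le_left (by linarith) hA1
  have hAL1 : 1 ≤ A * L := hA1.trans hAL
  have hALX : A * L ≤ X := le_mul_of_one_le_right (by linarith) hd1
  have hdX : 1 / δ ≤ X := le_mul_of_one_le_left (by linarith) hAL1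
  have hX1 : 1 ≤ X := hAL1.trans hALX
  have hHX : H ≤ X := by
    have : H ≤ H ^ 20 := le_self_pow₀ hH1 (by norm_num)
    have h2 : H ^ 20 ≤ A := by rw [hA]; nlinarith [pow_pos hH0 20]
    linarith
  have hlogH : 0 ≤ Real.log H := Real.log_nonneg hH1
  have hlogd : 0 ≤ Real.log (1 / δ) := Real.log_nonneg hd1
  have hlogL : 0 ≤ Real.log L := Real.log_nonneg hL1
  have hlogX : Real.log X = 20 * Real.log H + 20 * Real.log 2 + Real.log L + Real.log (1 / δ) := by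
    rw [hX, hA, Real.log_mul (by positivity) (by positivity), Real.log_mul (by positivity) (by positivity),
      Real.log_mul (by positivity) (by positivity), Real.log_pow, Real.log_pow]
    push_cast; ring
  have hstd : wy_Std X Q.C Unit := by
    refine ⟨hX1, ?_, ?_, fun i j => (hQ.height i j).trans hHX⟩
    · rw [Fintype.card_fin]
      have : Real.log H ≤ Real.log X := Real.log_le_log hH0 hHX
      linarith [hQ.dim]
    · simpa using Real.log_nonneg hX1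
  have hLam : (Matrix.of fun (_ _ : Unit) => Q.lam)ᵀ = Matrix.of fun (_ _ : Unit) => Q.lam := by
    ext i j; rfl
  have hbig : 1 / X ≤ ‖∫ z : Unit → ℝ, ((s4a_zeta (z ()) : ℝ) : ℂ) *
      wy_Q Q.C (wy_a1_col Q.th) (Matrix.of fun _ _ => Q.lam) (fun _ => Q.bet) Q.chi z * ee (-((fun _ => ξ) ⬝ᵥ z))‖ := by
    rw [← wy_a1_AInt Q hQ.unit]
    refine le_trans ?_ hξ
    rw [div_le_iff₀ (by linarith)]
    have := mul_le_mul_of_nonneg_left hdX hδ.le
    rwa [mul_one_div_cancel hδ.ne'] at this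
  obtain ⟨Pf, hs⟩ := hc X Q.C (wy_a1_col Q.th) (Matrix.of fun _ _ => Q.lam) (fun _ => Q.bet) Q.chi
    (fun z : Unit → ℝ => ((s4a_zeta (z ()) : ℝ) : ℂ)) (fun _ => ξ) hstd hLam
    (wy_a1_amp_chi Q hQ (hAL.trans hALX)) (wy_a1_amp_zeta hL (by linarith) (hLA.trans hALX) (hA2.trans (hAL.trans hALX))) hbig
  have hbud : wy_qp c X ≤ s4b_qp (c * K ^ c + c) (Real.log H + Real.log (1 / δ)) := by
    apply wy_a1_qp c K (by linarith) (by linarith [Real.log_nonneg hX1])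
    have hK' : 21 + Real.log L ≤ K := Nat.le_ceil _
    have hl2 : Real.log 2 ≤ 1 := by
      have := Real.log_two_lt_d9
      linarith
    rw [hlogX]
    nlinarith
  refine ⟨Pf, ⟨hs.symm, hs.idem⟩, hs.iso, fun i j => (hs.height i j).trans hbud, fun i => ?_, ?_⟩
  · have := hs.slow i ()
    rw [wy_a1_col_mul, wy_a1_col_sub] at this
    rw [wy_a1_mv_compl]
    exact this.trans hbud
  · have := hs.quad () ()
    rw [wy_a1_LamStar] at this
    exact this.trans hbud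

end Claimed.Agent.R258
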