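/-
Row 258, [Weyl].  Leaf P-WY-ADAPT3: (W3) in the form consumed by block [S6a] (helper70): `W3Goal c` of S6a/Defs.lean (`k = 1`, master parameter `X`).
PROVED (helper70): `κ = Unit`, `V' = of fun i _ => V i`, `Lam' = of fun _ _ => Lam`.
-/
import Claimed.Agent.R258.Pack012
import Claimed.Agent.R258.Pack004

set_option autoImplicit false
set_option linter.unusedSectionVars false
open Matrix

namespace Claimed.Agent.R258

section
variable {ι : Type} [Fintype ι]

/-- a vector as a one-column matrix -/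
def wy_col (x : ι → ℝ) : Matrix ι Unit ℝ := Matrix.of fun i _ => x i

theorem wy_col_bil (M : Matrix ι ι ℝ) (x y : ι → ℝ) : ((wy_col x)ᵀ * M * wy_col y) () () = x ⬝ᵥ (M *ᵥ y) := by
  rw [Matrix.dotProduct_mulVec]
  simp only [Matrix.mul_apply, wy_col, Matrix.transpose_apply, Matrix.of_apply, dotProduct, Matrix.vecMul]

theorem wy_col_mul (M : Matrix ι ι ℝ) (x : ι → ℝ) : M * wy_col x = wy_col (M *ᵥ x) := by
  ext i u
  simp only [Matrix.mul_apply, wy_col, Matrix.of_apply, Matrix.mulVec, dotProduct]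

theorem wy_col_sub (x y : ι → ℝ) : wy_col x - wy_col y = wy_col (x - y) := by
  ext i u
  simp only [wy_col, Matrix.sub_apply, Matrix.of_apply, Pi.sub_apply]

theorem wy_col_mulVec (x : ι → ℝ) (h : Unit → ℝ) (i : ι) : (wy_col x *ᵥ h) i = x i * h () := by
  simp only [Matrix.mulVec, dotProduct, wy_col, Matrix.of_apply, Finset.univ_unique, Finset.sum_singleton,
    PUnit.default_eq_unit]

theorem wy_ratM_sub (C : Matrix ι ι ℚ) : ratM (C - Cᵀ) = wy_R C - (wy_R C)ᵀ := by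
  ext i j
  simp only [ratM, wy_R, Matrix.map_apply, Matrix.sub_apply, Matrix.transpose_apply, Rat.cast_sub]

theorem wy_ratM_half (C : Matrix ι ι ℚ) :
    ratM ((1 / 2 : ℚ) • (C - Cᵀ)) = (1 / 2 : ℝ) • (wy_R C - (wy_R C)ᵀ) := by
  ext i j
  simp only [ratM, wy_R, Matrix.map_apply, Matrix.sub_apply, Matrix.transpose_apply, Matrix.smul_apply, smul_eq_mul]
  push_cast
  ring

theorem wy_quad_sym (M : Matrix ι ι ℝ) (x : ι → ℝ) : x ⬝ᵥ (((1 / 2 : ℝ) • (M + Mᵀ)) *ᵥ x) = x ⬝ᵥ (M *ᵥ x) := by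
  have h : x ⬝ᵥ (Mᵀ *ᵥ x) = x ⬝ᵥ (M *ᵥ x) := by
    rw [Matrix.mulVec_transpose, dotProduct_comm, Matrix.dotProduct_mulVec]
  rw [Matrix.smul_mulVec, Matrix.add_mulVec, dotProduct_smul, dotProduct_add, h, smul_eq_mul]
  ring

theorem wy_Omega_col (C : Matrix ι ι ℚ) (V : ι → ℝ) (Lam : ℝ) (h : Unit → ℝ) (m : ι → ℤ) (j : Unit) :
    wy_Omega C (wy_col V) (Matrix.of fun _ _ => Lam) h m j = retOm V C Lam (h ()) m := by
  cases j
  unfold wy_Omega retOm
  rw [Pi.sub_apply]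
  congr 1
  · simp only [Matrix.mulVec, dotProduct, Finset.univ_unique, Finset.sum_singleton, PUnit.default_eq_unit,
      Matrix.add_apply, Matrix.smul_apply, Matrix.of_apply, smul_eq_mul]
    rw [wy_col_bil]
    rfl
  · rw [wy_ratM_sub, Matrix.dotProduct_mulVec]
    simp only [Matrix.mulVec, dotProduct, Matrix.mul_apply, wy_col, Matrix.transpose_apply, Matrix.of_apply,
      Matrix.vecMul, wy_Z]

theorem wy_LamStar_col [DecidableEq ι] (C Pf : Matrix ι ι ℚ) (V : ι → ℝ) (Lam : ℝ) :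
    wy_LamStar C (wy_col V) (Matrix.of fun _ _ => Lam) Pf () () = effCurv Pf C V Lam := by
  unfold wy_LamStar effCurv
  rw [wy_col_mul, wy_col_sub]
  simp only [Matrix.add_apply, Matrix.smul_apply, Matrix.of_apply, Matrix.transpose_apply, smul_eq_mul]
  rw [wy_col_bil, wy_col_bil, wy_quad_sym, wy_ratM_half]
  have e : wy_R Pf = ratM Pf := rfl
  have e2 : wy_R C = ratM C := rfl
  rw [e, e2]
  ring

end

theorem wy_W3Goal : ∃ c : ℕ, W3Goal c := by
  obtain ⟨c, hc⟩ := wy_W3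
  refine ⟨c, ?_⟩
  intro ι _ _ V C Lam P X a B hX hcard hht hP hclr hPX haX hBX hret
  have hstd : wy_Std X C Unit :=
    ⟨hX, hcard, by simpa using Real.log_nonneg hX, hht⟩
  have hLam : (Matrix.of fun (_ _ : Unit) => Lam)ᵀ = Matrix.of fun (_ _ : Unit) => Lam := by
    ext i j; rfl
  have hrb : wy_RetBound P C (wy_col V) (Matrix.of fun _ _ => Lam) a B := by
    intro h m ⟨h1, h2, h3⟩ j
    rw [wy_Omega_col]
    refine hret (h ()) m h1 (h2 ()) fun i => ?_
    have := h3 i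
    rwa [wy_col_mulVec] at this
  obtain ⟨Pf, hs⟩ := hc X P C (wy_col V) (Matrix.of fun _ _ => Lam) a B hstd hLam ⟨hP, hclr⟩ hPX haX hBX hrb
  refine ⟨Pf, hs.idem, hs.symm, hs.height, ?_, fun i => ?_, ?_⟩
  · have := hs.iso
    rwa [hs.symm] at this
  · have := hs.slow i ()
    rw [wy_col_mul, wy_col_sub] at this
    exact this
  · have := hs.quad () ()
    rwa [wy_LamStar_col] at this

end Claimed.Agent.R258
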